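import Vale.Agent.Lib.P090.Test

/-!
The metric on a graph immersed in a local tree, and the wedge of a sequence of such metrics.
-/

namespace P090

section dW
variable {T : Type} (L : LT T) {V : Type} (G : SimpleGraph V) (P : V → T) (ρ : ℕ)

open Classical in
/-- The distance: a walk in the graph or a detour through the base that costs `2 ρ`. -/
noncomputable def dW (x y : V) : ℕ :=
  if x = y then 0 else sInf {n | n = 2 * ρ + L.d (P x) (P y) ∨ ∃ p : G.Walk x y, p.length = n}

variable {L G P ρ}

lemma dW_self (x : V) : dW L G P ρ x x = 0 := by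
  unfold dW
  rw [if_pos rfl]

lemma dW_mem {x y : V} (h : x ≠ y) : dW L G P ρ x y = 2 * ρ + L.d (P x) (P y) ∨
    ∃ p : G.Walk x y, p.length = dW L G P ρ x y := by
  have hne : {n | n = 2 * ρ + L.d (P x) (P y) ∨ ∃ p : G.Walk x y, p.length = n}.Nonempty :=
    ⟨_, Or.inl rfl⟩
  have := Nat.sInf_mem hne
  have e : dW L G P ρ x y =
      sInf {n | n = 2 * ρ + L.d (P x) (P y) ∨ ∃ p : G.Walk x y, p.length = n} := by
    unfold dW
    rw [if_neg h]
  rw [e]
  exact this

lemma dW_le_detour {x y : V} : dW L G P ρ x y ≤ 2 * ρ + L.d (P x) (P y) := by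
  by_cases h : x = y
  · subst h
    rw [dW_self]
    exact Nat.zero_le _
  · unfold dW
    rw [if_neg h]
    exact Nat.sInf_le (Or.inl rfl)

lemma dW_le_walk {x y : V} (p : G.Walk x y) : dW L G P ρ x y ≤ p.length := by
  by_cases h : x = y
  · subst h
    rw [dW_self]
    exact Nat.zero_le _
  · unfold dW
    rw [if_neg h]
    exact Nat.sInf_le (Or.inr ⟨p, rfl⟩)

lemma d_le_walk (hI : Imm L G P) {x y : V} (p : G.Walk x y) : L.d (P x) (P y) ≤ p.length := by
  induction p with
  | nil => rw [L.d_self]; exact Nat.zero_le _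
  | @cons u v w hadj p ih =>
    have h1 := L.d_tri (P u) (P v) (P w)
    rw [hI.hom hadj] at h1
    simp only [SimpleGraph.Walk.length_cons]
    omega

lemma d_le_dW (hI : Imm L G P) (x y : V) : L.d (P x) (P y) ≤ dW L G P ρ x y := by
  by_cases h : x = y
  · subst h
    rw [L.d_self]
    exact Nat.zero_le _
  · rcases dW_mem (L := L) (G := G) (P := P) (ρ := ρ) h with h1 | ⟨p, hp⟩
    · omega
    · rw [← hp]
      exact d_le_walk hI p

lemma one_le_dW (hρ : 1 ≤ ρ) {x y : V} (h : x ≠ y) : 1 ≤ dW L G P ρ x y := by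
  rcases dW_mem (L := L) (G := G) (P := P) (ρ := ρ) h with h1 | ⟨p, hp⟩
  · omega
  · rw [← hp]
    cases p with
    | nil => exact absurd rfl h
    | cons _ _ => simp

lemma dW_comm (x y : V) : dW L G P ρ x y = dW L G P ρ y x := by
  by_cases h : x = y
  · subst h; rfl
  · have h' : y ≠ x := fun e => h e.symm
    apply le_antisymm
    · rcases dW_mem (L := L) (G := G) (P := P) (ρ := ρ) h' with h1 | ⟨p, hp⟩
      · rw [h1, L.d_comm]
        exact dW_le_detour
      · rw [← hp, ← SimpleGraph.Walk.length_reverse]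
        exact dW_le_walk _
    · rcases dW_mem (L := L) (G := G) (P := P) (ρ := ρ) h with h1 | ⟨p, hp⟩
      · rw [h1, L.d_comm]
        exact dW_le_detour
      · rw [← hp, ← SimpleGraph.Walk.length_reverse]
        exact dW_le_walk _

lemma dW_tri (hI : Imm L G P) (x y z : V) :
    dW L G P ρ x z ≤ dW L G P ρ x y + dW L G P ρ y z := by
  by_cases hxy : x = y
  · subst hxy
    rw [dW_self]
    omega
  by_cases hyz : y = z
  · subst hyz
    rw [dW_self]
    omega
  have h1 := d_le_dW (ρ := ρ) hI x y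
  have h2 := d_le_dW (ρ := ρ) hI y z
  have h3 := L.d_tri (P x) (P y) (P z)
  have h4 : dW L G P ρ x z ≤ 2 * ρ + L.d (P x) (P z) := dW_le_detour
  rcases dW_mem (L := L) (G := G) (P := P) (ρ := ρ) hxy with h5 | ⟨p, hp⟩
  · omega
  · rcases dW_mem (L := L) (G := G) (P := P) (ρ := ρ) hyz with h6 | ⟨p', hp'⟩
    · omega
    · have h7 := dW_le_walk (L := L) (G := G) (P := P) (ρ := ρ) (p.append p')
      rw [SimpleGraph.Walk.length_append, hp, hp'] at h7
      exact h7

lemma dW_adj {x y : V} (h : G.Adj x y) : dW L G P ρ x y ≤ 1 := by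
  have := dW_le_walk (L := L) (G := G) (P := P) (ρ := ρ) (SimpleGraph.Walk.cons h SimpleGraph.Walk.nil)
  simpa using this

lemma wdata (hI : Imm L G P) (hρ : 1 ≤ ρ) : WData L G P (dW L G P ρ) ρ where
  one_le := fun _ _ h => one_le_dW hρ h
  base_le := d_le_dW hI
  walk := by
    intro x y h hlt
    rcases dW_mem (L := L) (G := G) (P := P) (ρ := ρ) h with h1 | ⟨p, hp⟩
    · omega
    · exact ⟨p, hp⟩

end dW

section wedge
variable {X : ℕ → Type} (d : ∀ n, X n → X n → ℕ) (D : ℕ → ℕ)

/-- The carrier of the wedge. -/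
abbrev WedgeT (X : ℕ → Type) : Type := Option (Σ n, X n)

open Classical in
/-- The wedge distance. -/
noncomputable def wd : WedgeT X → WedgeT X → ℕ
  | none, none => 0
  | none, some p => D p.1
  | some p, none => D p.1
  | some p, some q => if h : p.1 = q.1 then d p.1 p.2 (h ▸ q.2) else D p.1 + D q.1

lemma wd_same (n : ℕ) (x y : X n) :
    wd d D (some ⟨n, x⟩) (some ⟨n, y⟩) = d n x y := by
  simp [wd]

lemma wd_diff {n m : ℕ} (h : n ≠ m) (x : X n) (y : X m) :
    wd d D (some ⟨n, x⟩) (some ⟨m, y⟩) = D n + D m := by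
  simp [wd, h]

lemma wd_none_left (n : ℕ) (x : X n) : wd d D none (some ⟨n, x⟩) = D n := rfl

lemma wd_none_right (n : ℕ) (x : X n) : wd d D (some ⟨n, x⟩) none = D n := rfl

/-- Hypotheses for the wedge to be a metric. -/
structure WedgeHyp : Prop where
  self : ∀ n x, d n x x = 0
  pos : ∀ n x y, x ≠ y → 1 ≤ d n x y
  comm : ∀ n x y, d n x y = d n y x
  tri : ∀ n x y z, d n x z ≤ d n x y + d n y z
  bdd : ∀ n x y, d n x y ≤ 2 * D n
  Dpos : ∀ n, 1 ≤ D n

variable {d D}

lemma wd_self (h : WedgeHyp d D) : ∀ a : WedgeT X, wd d D a a = 0 := by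
  rintro (_ | ⟨n, x⟩)
  · rfl
  · rw [wd_same]; exact h.self n x

lemma wd_comm (h : WedgeHyp d D) : ∀ a b : WedgeT X, wd d D a b = wd d D b a := by
  rintro (_ | ⟨n, x⟩) (_ | ⟨m, y⟩)
  · rfl
  · rfl
  · rfl
  · by_cases hnm : n = m
    · subst hnm
      rw [wd_same, wd_same]; exact h.comm n x y
    · rw [wd_diff d D hnm, wd_diff d D (Ne.symm hnm), add_comm]

lemma wd_eq (h : WedgeHyp d D) : ∀ a b : WedgeT X, wd d D a b = 0 → a = b := by
  rintro (_ | ⟨n, x⟩) (_ | ⟨m, y⟩) hab
  · rfl
  · rw [wd_none_left] at hab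
    have := h.Dpos m
    omega
  · rw [wd_none_right] at hab
    have := h.Dpos n
    omega
  · by_cases hnm : n = m
    · subst hnm
      rw [wd_same] at hab
      by_cases hxy : x = y
      · rw [hxy]
      · have := h.pos n x y hxy
        omega
    · rw [wd_diff d D hnm] at hab
      have := h.Dpos n
      omega

lemma wd_tri (h : WedgeHyp d D) : ∀ a b c : WedgeT X, wd d D a c ≤ wd d D a b + wd d D b c := by
  rintro (_ | ⟨n, x⟩) (_ | ⟨m, y⟩) (_ | ⟨l, z⟩)
  · simp [wd]
  · simp [wd]
  · simp [wd]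
  · rw [wd_none_left, wd_none_left]
    by_cases hml : m = l
    · subst hml
      rw [wd_same]; omega
    · rw [wd_diff d D hml]; omega
  · simp [wd]
  · rw [wd_none_right, wd_none_left]
    by_cases hnl : n = l
    · subst hnl
      rw [wd_same]
      have := h.bdd n x z
      omega
    · rw [wd_diff d D hnl]
  · rw [wd_none_right]
    by_cases hnm : n = m
    · subst hnm
      rw [wd_same, wd_none_right]; omega
    · rw [wd_diff d D hnm, wd_none_right]; omega
  · by_cases hnm : n = m
    · subst hnm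
      by_cases hnl : n = l
      · subst hnl
        rw [wd_same, wd_same, wd_same]
        exact h.tri n x y z
      · rw [wd_same, wd_diff d D hnl, wd_diff d D hnl]; omega
    · by_cases hnl : n = l
      · subst hnl
        rw [wd_same, wd_diff d D hnm, wd_diff d D (Ne.symm hnm)]
        have := h.bdd n x z
        omega
      · rw [wd_diff d D hnm, wd_diff d D hnl]
        by_cases hml : m = l
        · subst hml
          rw [wd_same]; omega
        · rw [wd_diff d D hml]; omega

/-- The wedge as a metric space. -/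
@[reducible] noncomputable def wedgeMetric (h : WedgeHyp d D) : MetricSpace (WedgeT X) where
  dist a b := (wd d D a b : ℝ)
  dist_self a := by rw [wd_self h a]; simp
  dist_comm a b := by rw [wd_comm h a b]
  dist_triangle a b c := by exact_mod_cast wd_tri h a b c
  eq_of_dist_eq_zero := by
    intro a b hab
    exact wd_eq h a b (by exact_mod_cast hab)

end wedge

end P090
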