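import Mathlib

/-!
The deletion lemma (counting over colourings) and the core of minimum degree three.
-/

namespace P090

open Finset

section delete
variable {α : Type} [Fintype α] [DecidableEq α]

/-- Number of colourings vanishing on a given set. -/
lemma card_col (q : ℕ) (F : Finset α) :
    (((univ : Finset (α → Fin (q + 1))).filter (fun col => ∀ e ∈ F, col e = 0)).card : ℝ) =
      ((q : ℝ) + 1) ^ Fintype.card α * (1 / ((q : ℝ) + 1)) ^ F.card := by
  have h1 : (univ : Finset (α → Fin (q + 1))).filter (fun col => ∀ e ∈ F, col e = 0) =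
      Fintype.piFinset (fun e => if e ∈ F then {0} else univ) := by
    ext col
    simp only [mem_filter, mem_univ, true_and, Fintype.mem_piFinset]
    constructor
    · intro h e
      by_cases he : e ∈ F
      · simp [he, h e he]
      · simp [he]
    · intro h e he
      have := h e
      simpa [he] using this
  rw [h1, Fintype.card_piFinset]
  have h2 : ∀ e : α, ((if e ∈ F then ({0} : Finset (Fin (q + 1))) else univ)).card =
      if e ∈ F then 1 else (q + 1) := by
    intro e
    by_cases he : e ∈ F <;> simp [he]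
  simp only [h2]
  rw [Finset.prod_ite]
  simp only [prod_const_one, one_mul, prod_const]
  have h3 : (univ.filter (fun e => e ∉ F)).card = Fintype.card α - F.card := by
    have : univ.filter (fun e => e ∉ F) = Fᶜ := by ext; simp
    rw [this, card_compl]
  rw [h3]
  have hq : ((q : ℝ) + 1) ≠ 0 := by positivity
  have h4 : F.card ≤ Fintype.card α := card_le_univ F
  have h5 : ((q : ℝ) + 1) ^ Fintype.card α =
      ((q : ℝ) + 1) ^ (Fintype.card α - F.card) * ((q : ℝ) + 1) ^ F.card := by
    rw [← pow_add, Nat.sub_add_cancel h4]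
  push_cast
  rw [h5, one_div, inv_pow, mul_assoc, mul_inv_cancel₀ (pow_ne_zero _ hq), mul_one]

/-- The deletion lemma. -/
lemma deletion (q : ℕ) (Ed : Finset α) (Pp : Finset (Finset α)) (hne : ∀ F ∈ Pp, F.Nonempty) :
    ∃ X ⊆ Ed, (∀ F ∈ Pp, ¬ F ⊆ X) ∧
      (Ed.card : ℝ) * (1 / ((q : ℝ) + 1)) - ∑ F ∈ Pp, (1 / ((q : ℝ) + 1)) ^ F.card ≤ X.card := by
  classical
  set Ω := (univ : Finset (α → Fin (q + 1))) with hΩ
  set Y : (α → Fin (q + 1)) → Finset α := fun col => Ed.filter (fun e => col e = 0) with hY
  set Bad : (α → Fin (q + 1)) → Finset (Finset α) :=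
    fun col => Pp.filter (fun F => ∀ e ∈ F, col e = 0) with hBad
  set M : ℝ := ((q : ℝ) + 1) ^ Fintype.card α with hM
  have hMpos : 0 < M := by positivity
  have hΩc : (Ω.card : ℝ) = M := by
    simp [hΩ, hM, Fintype.card_fin]
  have h1 : ∑ col ∈ Ω, ((Y col).card : ℝ) = M * ((Ed.card : ℝ) * (1 / ((q : ℝ) + 1))) := by
    have : ∀ col, ((Y col).card : ℝ) = ∑ e ∈ Ed, (if col e = 0 then (1 : ℝ) else 0) := by
      intro col
      simp only [hY]
      rw [card_filter]
      push_cast
      rfl
    simp only [this]
    rw [sum_comm]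
    have h2 : ∀ e ∈ Ed, ∑ col ∈ Ω, (if col e = 0 then (1 : ℝ) else 0) = M * (1 / ((q : ℝ) + 1)) := by
      intro e _
      have h3 := card_col q ({e} : Finset α)
      simp only [mem_singleton, forall_eq, card_singleton, pow_one] at h3
      rw [← hM] at h3
      rw [← h3, card_filter]
      push_cast
      rfl
    rw [sum_congr rfl h2, sum_const, nsmul_eq_mul]
    ring
  have h2 : ∑ col ∈ Ω, ((Bad col).card : ℝ) =
      M * ∑ F ∈ Pp, (1 / ((q : ℝ) + 1)) ^ F.card := by
    have : ∀ col, ((Bad col).card : ℝ) = ∑ F ∈ Pp, (if ∀ e ∈ F, col e = 0 then (1 : ℝ) else 0) := by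
      intro col
      simp only [hBad]
      rw [card_filter]
      push_cast
      rfl
    simp only [this]
    rw [sum_comm, mul_sum]
    apply sum_congr rfl
    intro F _
    have h3 := card_col q F
    rw [← hM] at h3
    rw [← h3, card_filter]
    push_cast
    rfl
  set avg : ℝ := (Ed.card : ℝ) * (1 / ((q : ℝ) + 1)) - ∑ F ∈ Pp, (1 / ((q : ℝ) + 1)) ^ F.card with havg
  have h3 : ∑ _col ∈ Ω, avg ≤ ∑ col ∈ Ω, (((Y col).card : ℝ) - (Bad col).card) := by
    rw [sum_const, nsmul_eq_mul, hΩc, sum_sub_distrib, h1, h2, havg]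
    apply le_of_eq
    ring
  obtain ⟨col, -, hcol⟩ := Finset.exists_le_of_sum_le (s := Ω) ⟨fun _ => 0, mem_univ _⟩ h3
  set D : Finset α := (Bad col).attach.image
    (fun F => (hne F.1 (mem_filter.mp F.2).1).choose) with hD
  refine ⟨Y col \ D, sdiff_subset.trans (filter_subset _ _), ?_, ?_⟩
  · intro F hF hsub
    have hmemBad : F ∈ Bad col := by
      refine mem_filter.mpr ⟨hF, ?_⟩
      intro e he
      have := (mem_sdiff.mp (hsub he)).1
      exact (mem_filter.mp this).2
    have hpick := (hne F hF).choose_spec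
    have h4 : (hne F hF).choose ∈ D := by
      rw [hD, mem_image]
      exact ⟨⟨F, hmemBad⟩, mem_attach _ _, rfl⟩
    exact (mem_sdiff.mp (hsub hpick)).2 h4
  · have h4 : D.card ≤ (Bad col).card := by
      rw [hD]
      refine card_image_le.trans ?_
      rw [card_attach]
    have h5 : (Y col).card - D.card ≤ (Y col \ D).card := le_card_sdiff _ _
    have h6 : (Y col).card ≤ (Y col \ D).card + D.card := by omega
    have h7 : ((Y col).card : ℝ) ≤ ((Y col \ D).card : ℝ) + D.card := by exact_mod_cast h6
    have h8 : (D.card : ℝ) ≤ (Bad col).card := by exact_mod_cast h4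
    linarith

end delete

section core
variable {V : Type} [DecidableEq V]

open Classical in
/-- A graph with many edges has a nonempty part of minimum degree three. -/
lemma exists_core (A : V → V → Prop) (sym : ∀ x y, A x y → A y x) (U : Finset V)
    (h : 4 * U.card < ∑ x ∈ U, (U.filter (A x)).card) :
    ∃ U' ⊆ U, U'.Nonempty ∧ ∀ x ∈ U', 3 ≤ (U'.filter (A x)).card := by
  induction' hn : U.card using Nat.strong_induction_on with n ih generalizing U
  by_cases hall : ∀ x ∈ U, 3 ≤ (U.filter (A x)).card
  · refine ⟨U, Subset.refl _, ?_, hall⟩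
    by_contra hemp
    rw [not_nonempty_iff_eq_empty] at hemp
    subst hemp
    simp at h
  · push Not at hall
    obtain ⟨x₀, hx₀, hdeg⟩ := hall
    set U' := U.erase x₀ with hU'
    have hcard : U'.card + 1 = U.card := card_erase_add_one hx₀
    have h1 : ∑ x ∈ U, (U.filter (A x)).card =
        (U.filter (A x₀)).card + ∑ x ∈ U', (U.filter (A x)).card := by
      exact (add_sum_erase U (fun x => (U.filter (A x)).card) hx₀).symm
    have h2 : ∑ x ∈ U', (U.filter (A x)).card =
        ∑ x ∈ U', ((U'.filter (A x)).card + (if A x x₀ then 1 else 0)) := by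
      apply sum_congr rfl
      intro x _
      have hins : U = insert x₀ U' := (insert_erase hx₀).symm
      have hnot : x₀ ∉ U' := notMem_erase _ _
      conv_lhs => rw [hins, filter_insert]
      split_ifs with hA
      · rw [card_insert_of_notMem]
        intro hmem
        exact hnot (mem_filter.mp hmem).1
      · rfl
    have h3 : ∑ x ∈ U', (if A x x₀ then 1 else 0) ≤ 2 := by
      have : ∑ x ∈ U', (if A x x₀ then 1 else 0) = (U'.filter (fun x => A x x₀)).card := by
        rw [card_filter]
      rw [this]
      have hsub : U'.filter (fun x => A x x₀) ⊆ U.filter (A x₀) := by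
        intro x hx
        have hx2 := mem_filter.mp hx
        exact mem_filter.mpr ⟨(mem_erase.mp hx2.1).2, sym _ _ hx2.2⟩
      have := card_le_card hsub
      omega
    rw [sum_add_distrib] at h2
    have h4 : 4 * U'.card < ∑ x ∈ U', (U'.filter (A x)).card := by omega
    obtain ⟨U'', h5, h6, h7⟩ := ih U'.card (by omega) U' h4 rfl
    exact ⟨U'', h5.trans (erase_subset _ _), h6, h7⟩

end core

end P090
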