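import Vale.Agent.Lib.P090.Free
import Vale.Agent.Lib.P090.Delete

/-!
Existence of pieces: subgraphs of covers of the base with minimum degree three, bounded maximum
degree and no long reduced walk in common with a given finite immersed graph.
-/

namespace P090

open Finset

/-- Reduced walks in a local tree are geodesic. -/
lemma reduced_geodesic {T : Type} (L : LT T) (ζ : ℕ → T) (h1 : ∀ i, L.d (ζ i) (ζ (i + 1)) = 1)
    (h2 : ∀ i, ζ (i + 2) ≠ ζ i) (i j : ℕ) (hj : j + 1 < L.R) : L.d (ζ i) (ζ (i + j)) = j := by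
  induction' j using Nat.strong_induction_on with j ih
  match j, hj, ih with
  | 0, _, _ => exact L.d_self _
  | 1, _, _ => exact h1 i
  | j + 2, hj, ih =>
    have h3 := ih (j + 1) (by omega) (by omega)
    have h4 := ih j (by omega) (by omega)
    have e1 : i + (j + 1) + 1 = i + (j + 2) := by omega
    have h5 := h1 (i + (j + 1))
    rw [e1] at h5
    rcases L.step (ζ i) _ _ (by rw [h3]; omega) h5 with h6 | h6
    · rw [h6, h3]
    · exfalso
      rw [h3] at h6
      have h7 : L.d (ζ (i + (j + 1))) (ζ (i + j)) = 1 := by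
        rw [L.d_comm]; exact h1 (i + j)
      have h8 : ζ (i + (j + 2)) = ζ (i + j) :=
        L.par_uniq (ζ i) _ _ _ (by rw [h3]; omega) h5 h7 (by rw [h6, h3]) (by rw [h4, h3])
      exact h2 (i + j) h8

/-- The edges of the first `r` steps of a walk. -/
def edgesOf {W : Type} [DecidableEq W] (r : ℕ) (ζ : ℕ → W) : Finset (Sym2 W) :=
  (range r).image (fun i => s(ζ i, ζ (i + 1)))

lemma edgesOf_succ {W : Type} [DecidableEq W] (r : ℕ) (ζ : ℕ → W) :
    edgesOf (r + 1) ζ = insert s(ζ 0, ζ 1) (edgesOf r (fun i => ζ (i + 1))) := by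
  ext e
  simp only [edgesOf, mem_insert, mem_image, mem_range]
  constructor
  · rintro ⟨i, hi, rfl⟩
    cases i with
    | zero => left; rfl
    | succ i => right; exact ⟨i, by omega, rfl⟩
  · rintro (rfl | ⟨i, hi, rfl⟩)
    · exact ⟨0, by omega, rfl⟩
    · exact ⟨i + 1, by omega, rfl⟩

lemma card_edgesOf {T : Type} [DecidableEq T] (L : LT T) (ζ : ℕ → T)
    (h1 : ∀ i, L.d (ζ i) (ζ (i + 1)) = 1)
    (h2 : ∀ i, ζ (i + 2) ≠ ζ i) (r : ℕ) (hr : r + 2 < L.R) : (edgesOf r ζ).card = r := by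
  unfold edgesOf
  rw [card_image_of_injOn, card_range]
  have key : ∀ i j, i < j → j < r → s(ζ i, ζ (i + 1)) ≠ s(ζ j, ζ (j + 1)) := by
    intro i j hij hj heq
    obtain ⟨m, rfl⟩ : ∃ m, j = i + (m + 1) := ⟨j - i - 1, by omega⟩
    have h3 := reduced_geodesic L ζ h1 h2 i (m + 1) (by omega)
    have h4 := reduced_geodesic L ζ h1 h2 i (m + 2) (by omega)
    rw [Sym2.eq_iff] at heq
    rcases heq with ⟨h5, _⟩ | ⟨h5, _⟩
    · rw [← h5, L.d_self] at h3
      omega
    · have e : i + (m + 1) + 1 = i + (m + 2) := by omega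
      rw [e] at h5
      rw [← h5, L.d_self] at h4
      omega
  intro i hi j hj heq
  simp only [coe_range, Set.mem_Iio] at hi hj
  by_contra hne
  rcases Nat.lt_or_gt_of_ne hne with h | h
  · exact key i j h hj heq
  · exact key j i h hi heq.symm

section shadow
variable {W V : Type} [DecidableEq W]

/-- The edge sets of walks from `v` that shadow walks from `x`. -/
def shadow (up : W → V → W) (nb : V → Finset V) : ℕ → W → V → Finset (Finset (Sym2 W))
  | 0, _, _ => {∅}
  | r + 1, v, x => (nb x).biUnion (fun x' =>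
      (shadow up nb r (up v x') x').image (fun F => insert s(v, up v x') F))

lemma card_shadow (up : W → V → W) (nb : V → Finset V) (B : Finset V) (Δ : ℕ)
    (hnb : ∀ x ∈ B, nb x ⊆ B) (hdeg : ∀ x ∈ B, (nb x).card ≤ Δ) :
    ∀ (r : ℕ) (v : W) (x : V), x ∈ B → (shadow up nb r v x).card ≤ Δ ^ r := by
  intro r
  induction r with
  | zero => intro v x _; simp [shadow]
  | succ r ih =>
    intro v x hx
    simp only [shadow]
    refine card_biUnion_le.trans ?_
    have h1 : ∀ x' ∈ nb x, ((shadow up nb r (up v x') x').image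
        (fun F => insert s(v, up v x') F)).card ≤ Δ ^ r := by
      intro x' hx'
      exact card_image_le.trans (ih _ _ (hnb x hx hx'))
    refine (sum_le_sum h1).trans ?_
    rw [sum_const, smul_eq_mul, pow_succ]
    calc (nb x).card * Δ ^ r ≤ Δ * Δ ^ r := Nat.mul_le_mul_right _ (hdeg x hx)
      _ = Δ ^ r * Δ := mul_comm _ _

lemma mem_shadow (up : W → V → W) (nb : V → Finset V) :
    ∀ (r : ℕ) (ζ : ℕ → W) (ξ : ℕ → V), (∀ i, up (ζ i) (ξ (i + 1)) = ζ (i + 1)) →
      (∀ i, ξ (i + 1) ∈ nb (ξ i)) → edgesOf r ζ ∈ shadow up nb r (ζ 0) (ξ 0) := by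
  intro r
  induction r with
  | zero =>
    intro ζ ξ _ _
    simp [shadow, edgesOf]
  | succ r ih =>
    intro ζ ξ h1 h2
    simp only [shadow]
    rw [mem_biUnion]
    refine ⟨ξ 1, h2 0, ?_⟩
    rw [mem_image]
    refine ⟨edgesOf r (fun i => ζ (i + 1)), ?_, ?_⟩
    · have h3 := h1 0
      simp only [zero_add] at h3
      rw [h3]
      exact ih (fun i => ζ (i + 1)) (fun i => ξ (i + 1)) (fun i => h1 (i + 1)) (fun i => h2 (i + 1))
    · have h3 := h1 0
      simp only [zero_add] at h3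
      rw [h3, edgesOf_succ]

end shadow

section cayley
variable {k : ℕ} {Γ : Type} [Group Γ] {Φ : FreeGroup (Fin k) →* Γ}

lemma cd_eq_one_iff (hs : Function.Surjective Φ) (hN : NS Φ 2) {x y : Γ} :
    cd Φ x y = 1 ↔ ∃ l, y = Φ (letter l) * x := by
  constructor
  · intro h
    obtain ⟨z, hz, hz'⟩ := exists_min hs (y * x⁻¹)
    unfold cd at h
    rw [h] at hz'
    obtain ⟨l, rfl⟩ := eq_letter_of_norm_one hz'
    exact ⟨l, by rw [hz, inv_mul_cancel_right]⟩
  · rintro ⟨l, rfl⟩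
    unfold cd
    rw [mul_inv_cancel_right, wlen_eq_norm hs (m := 1) hN, norm_letter]
    rw [norm_letter]

lemma letter_map_inj (hN : NS Φ 2) {l₁ l₂ : Fin k × Bool} (h : Φ (letter l₁) = Φ (letter l₂)) :
    l₁ = l₂ := by
  by_contra hne
  have h1 : (letter l₁)⁻¹ * letter l₂ ≠ 1 := by
    intro h2
    rw [inv_mul_eq_one] at h2
    exact hne (letter_inj h2)
  apply hN _ h1
  · have := FreeGroup.norm_mul_le (letter l₁)⁻¹ (letter l₂)
    rw [FreeGroup.norm_inv_eq, norm_letter, norm_letter] at this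
    exact this
  · rw [map_mul, map_inv, h, inv_mul_cancel]

open Classical in
lemma card_nbrs [Fintype Γ] (hs : Function.Surjective Φ) (hN : NS Φ 2) (x : Γ) :
    (univ.filter (fun y => cd Φ x y = 1)).card = 2 * k := by
  have h1 : univ.filter (fun y => cd Φ x y = 1) =
      (univ : Finset (Fin k × Bool)).image (fun l => Φ (letter l) * x) := by
    ext y
    simp only [mem_filter, mem_univ, true_and, mem_image]
    rw [cd_eq_one_iff hs hN]
    constructor
    · rintro ⟨l, rfl⟩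
      exact ⟨l, rfl⟩
    · rintro ⟨l, rfl⟩
      exact ⟨l, rfl⟩
  rw [h1, card_image_of_injective]
  · simp [Fintype.card_prod, Fintype.card_fin, mul_comm]
  · intro l₁ l₂ h
    exact letter_map_inj hN (mul_right_cancel h)

end cayley

lemma numeric_choose : ((Nat.choose 512 32 : ℕ) : ℝ) * (1 / 64 : ℝ) ^ 32 ≤ 1 / 2 := by
  have h1 : ((Nat.choose 512 32 : ℕ) : ℝ) ≤ ((512 : ℕ) : ℝ) ^ 32 / ((Nat.factorial 32 : ℕ) : ℝ) :=
    Nat.choose_le_pow_div 32 512
  have h2 : ((512 : ℕ) : ℝ) ^ 32 / ((Nat.factorial 32 : ℕ) : ℝ) * (1 / 64 : ℝ) ^ 32 ≤ 1 / 2 := by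
    norm_num [Nat.factorial]
  have h3 : (0 : ℝ) ≤ (1 / 64 : ℝ) ^ 32 := by positivity
  exact (mul_le_mul_of_nonneg_right h1 h3).trans h2

lemma numeric_walk (b r : ℕ) (hr : r = b + 1) :
    (b : ℝ) * ((31 : ℝ) ^ r * (1 / 64 : ℝ) ^ r) ≤ 1 := by
  have h1 : (31 : ℝ) ^ r * (1 / 64 : ℝ) ^ r ≤ (1 / 2 : ℝ) ^ r := by
    rw [← mul_pow]
    exact pow_le_pow_left₀ (by norm_num) (by norm_num) r
  have h2 : (b : ℝ) ≤ 2 ^ r := by
    have h3 : b < 2 ^ r := by
      rw [hr]
      have := Nat.lt_two_pow_self (n := b + 1)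
      omega
    exact_mod_cast h3.le
  have h4 : (b : ℝ) * (1 / 2 : ℝ) ^ r ≤ 1 := by
    calc (b : ℝ) * (1 / 2 : ℝ) ^ r ≤ 2 ^ r * (1 / 2 : ℝ) ^ r :=
          mul_le_mul_of_nonneg_right h2 (by positivity)
      _ = 1 := by rw [← mul_pow]; norm_num
  exact (mul_le_mul_of_nonneg_left h1 (by positivity)).trans h4

lemma NS.mono {α : Type} [DecidableEq α] {Γ : Type} [Group Γ] {Φ : FreeGroup α →* Γ} {a b : ℕ}
    (h : NS Φ b) (hab : a ≤ b) : NS Φ a :=
  fun x hx hn => h x hx (hn.trans hab)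

/-- The Cayley graph of a local tree. -/
def treeGraph {T : Type} (L : LT T) : SimpleGraph T where
  Adj x y := L.d x y = 1
  symm := ⟨fun x y h => by rw [L.d_comm]; exact h⟩
  loopless := ⟨fun x h => by rw [L.d_self] at h; omega⟩

open Classical in
/-- **Existence of pieces.** -/
theorem exists_piece {Γ : Type} [Group Γ] [Fintype Γ] (Φ : FreeGroup (Fin 256) →* Γ)
    (hs : Function.Surjective Φ) (hN : NS Φ 2) {V : Type} (G : SimpleGraph V) (Q : V → Γ)
    (B : Finset V) (hB : ∀ x ∈ B, ∀ y, G.Adj x y → y ∈ B)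
    (hdeg : ∀ x ∈ B, (B.filter (G.Adj x)).card ≤ 31) :
    ∃ (n : ℕ) (adj : SimpleGraph (Fin n)) (π : Fin n → Γ), 0 < n ∧
      (∀ x y, adj.Adj x y → cd Φ (π x) (π y) = 1) ∧
      (∀ x y z, adj.Adj x y → adj.Adj x z → π y = π z → y = z) ∧
      (∀ x, 3 ≤ (univ.filter (adj.Adj x)).card) ∧
      (∀ x, (univ.filter (adj.Adj x)).card ≤ 31) ∧
      (∀ (ζ : ℕ → Fin n) (ξ : ℕ → V), ξ 0 ∈ B → (∀ i, adj.Adj (ζ i) (ζ (i + 1))) →
        (∀ i, ζ (i + 2) ≠ ζ i) → (∀ i, G.Adj (ξ i) (ξ (i + 1))) → (∀ i, π (ζ i) = Q (ξ i)) →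
        False) := by
  set r := B.card + 1 with hr
  obtain ⟨Γ', _, _, Φ', pr, hs', hN', hpr⟩ := exists_cover Φ (2 * (r + 3 + 1))
  set L' : LT Γ' := mkLT Φ' hs' (r + 3) hN' with hL'
  have hN'2 : NS Φ' 2 := hN'.mono (by omega)
  set G' : SimpleGraph Γ' := treeGraph L' with hG'
  have hG'adj : ∀ {x y}, G'.Adj x y ↔ ∃ l, y = Φ' (letter l) * x := by
    intro x y
    exact cd_eq_one_iff hs' hN'2
  have hprl : ∀ x l, pr (Φ' (letter l) * x) = Φ (letter l) * pr x := by
    intro x l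
    rw [map_mul, hpr]
  -- number of edges
  have hEd : G'.edgeFinset.card * 2 = Fintype.card Γ' * 512 := by
    have h1 := G'.sum_degrees_eq_twice_card_edges
    have h2 : ∀ v, G'.degree v = 512 := by
      intro v
      rw [← SimpleGraph.card_neighborFinset_eq_degree, SimpleGraph.neighborFinset_eq_filter]
      have h3 := card_nbrs hs' hN'2 v
      have h4 : (2 * 256 : ℕ) = 512 := by norm_num
      convert h3.trans h4 using 2
      ext y
      simp only [mem_filter, mem_univ, true_and]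
      rfl
    simp only [h2, sum_const, card_univ, smul_eq_mul] at h1
    omega
  -- local injectivity of the projection
  have hlocal : ∀ {v y z}, G'.Adj v y → G'.Adj v z → pr y = pr z → y = z := by
    intro v y z hy hz h
    obtain ⟨l₁, rfl⟩ := hG'adj.mp hy
    obtain ⟨l₂, rfl⟩ := hG'adj.mp hz
    rw [hprl, hprl] at h
    rw [letter_map_inj hN (mul_right_cancel h)]
  let up : Γ' → V → Γ' := fun v x' =>
    if h : ∃ y, G'.Adj v y ∧ pr y = Q x' then h.choose else v
  have hup : ∀ {v y x'}, G'.Adj v y → pr y = Q x' → up v x' = y := by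
    intro v y x' h1 h2
    have hex : ∃ y, G'.Adj v y ∧ pr y = Q x' := ⟨y, h1, h2⟩
    have h3 : up v x' = hex.choose := dif_pos hex
    rw [h3]
    exact hlocal hex.choose_spec.1 h1 (hex.choose_spec.2.trans h2.symm)
  let nb : V → Finset V := fun x => B.filter (G.Adj x)
  -- the bad families
  set P₁ : Finset (Finset (Sym2 Γ')) :=
    (((univ : Finset Γ') ×ˢ B).biUnion (fun p => shadow up nb r p.1 p.2)).filter
      (fun F => F.card = r) with hP₁
  obtain ⟨Lt, hLt1, hLt2⟩ : ∃ Lt : Finset (Fin 256 × Bool), (∀ l, l ∈ Lt) ∧ Lt.card ≤ 512 :=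
    ⟨univ, mem_univ, by simp [Fintype.card_prod, Fintype.card_fin]⟩
  obtain ⟨star, hstardef⟩ : ∃ star : Γ' → Finset (Sym2 Γ'), ∀ v, star v =
      Lt.image (fun l => s(v, Φ' (letter l) * v)) :=
    ⟨_, fun _ => rfl⟩
  set P₂ : Finset (Finset (Sym2 Γ')) :=
    (univ : Finset Γ').biUnion (fun v => (star v).powersetCard 32) with hP₂
  have hP₁card : P₁.card ≤ Fintype.card Γ' * (B.card * 31 ^ r) := by
    refine (card_filter_le _ _).trans (card_biUnion_le.trans ?_)
    have h1 : ∀ p ∈ (univ : Finset Γ') ×ˢ B, (shadow up nb r p.1 p.2).card ≤ 31 ^ r := by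
      intro p hp
      exact card_shadow up nb B 31 (fun x _ => filter_subset _ _) hdeg r _ _ (mem_product.mp hp).2
    refine (sum_le_sum h1).trans ?_
    rw [sum_const, smul_eq_mul, card_product, card_univ, mul_assoc]
  have hstar : ∀ v, (star v).card ≤ 512 := by
    intro v
    rw [hstardef]
    exact card_image_le.trans hLt2
  have hP₂card : P₂.card ≤ Fintype.card Γ' * Nat.choose 512 32 := by
    refine card_biUnion_le.trans ?_
    have h1 : ∀ v ∈ (univ : Finset Γ'), ((star v).powersetCard 32).card ≤ Nat.choose 512 32 := by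
      intro v _
      rw [card_powersetCard]
      exact Nat.choose_le_choose _ (hstar v)
    refine (sum_le_sum h1).trans ?_
    rw [sum_const, smul_eq_mul, card_univ]
  have hP₁F : ∀ F ∈ P₁, F.card = r := fun F hF => (mem_filter.mp hF).2
  have hP₂F : ∀ F ∈ P₂, F.card = 32 := by
    intro F hF
    obtain ⟨v, -, hv⟩ := mem_biUnion.mp hF
    rw [mem_powersetCard] at hv
    exact hv.2
  -- deletion
  obtain ⟨X, hXsub, hXbad, hXcard⟩ := deletion 63 G'.edgeFinset (P₁ ∪ P₂) (by
    intro F hF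
    rw [← card_pos]
    rcases mem_union.mp hF with h | h
    · rw [hP₁F F h]; omega
    · rw [hP₂F F h]; omega)
  have hcardpos : (0 : ℝ) < Fintype.card Γ' := by
    have : 0 < Fintype.card Γ' := Fintype.card_pos
    exact_mod_cast this
  have hXbig : (2 : ℝ) * Fintype.card Γ' < X.card := by
    have e63 : ((63 : ℕ) : ℝ) + 1 = 64 := by norm_num
    rw [e63] at hXcard
    have h1 : ∑ F ∈ P₁ ∪ P₂, (1 / 64 : ℝ) ^ F.card ≤
        ∑ F ∈ P₁, (1 / 64 : ℝ) ^ F.card + ∑ F ∈ P₂, (1 / 64 : ℝ) ^ F.card := by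
      rw [← sum_union_inter]
      have : (0 : ℝ) ≤ ∑ F ∈ P₁ ∩ P₂, (1 / 64 : ℝ) ^ F.card := sum_nonneg (fun _ _ => by positivity)
      linarith
    have h2 : ∑ F ∈ P₁, (1 / 64 : ℝ) ^ F.card = P₁.card * (1 / 64 : ℝ) ^ r := by
      rw [sum_congr rfl (fun F hF => by rw [hP₁F F hF]), sum_const, nsmul_eq_mul]
    have h3 : ∑ F ∈ P₂, (1 / 64 : ℝ) ^ F.card = P₂.card * (1 / 64 : ℝ) ^ 32 := by
      rw [sum_congr rfl (fun F hF => by rw [hP₂F F hF]), sum_const, nsmul_eq_mul]
    have h4 : (P₁.card : ℝ) * (1 / 64 : ℝ) ^ r ≤ Fintype.card Γ' := by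
      have h5 : (P₁.card : ℝ) ≤ Fintype.card Γ' * (B.card * 31 ^ r) := by exact_mod_cast hP₁card
      have h6 := numeric_walk B.card r hr
      calc (P₁.card : ℝ) * (1 / 64 : ℝ) ^ r
          ≤ (Fintype.card Γ' * (B.card * 31 ^ r)) * (1 / 64 : ℝ) ^ r :=
            mul_le_mul_of_nonneg_right h5 (by positivity)
        _ = Fintype.card Γ' * ((B.card : ℝ) * ((31 : ℝ) ^ r * (1 / 64 : ℝ) ^ r)) := by ring
        _ ≤ Fintype.card Γ' * 1 := mul_le_mul_of_nonneg_left h6 hcardpos.le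
        _ = _ := mul_one _
    have h5 : (P₂.card : ℝ) * (1 / 64 : ℝ) ^ 32 ≤ Fintype.card Γ' * (1 / 2) := by
      have h6 : (P₂.card : ℝ) ≤ Fintype.card Γ' * Nat.choose 512 32 := by exact_mod_cast hP₂card
      calc (P₂.card : ℝ) * (1 / 64 : ℝ) ^ 32
          ≤ (Fintype.card Γ' * Nat.choose 512 32) * (1 / 64 : ℝ) ^ 32 :=
            mul_le_mul_of_nonneg_right h6 (by positivity)
        _ = Fintype.card Γ' * ((Nat.choose 512 32 : ℝ) * (1 / 64 : ℝ) ^ 32) := by ring
        _ ≤ _ := mul_le_mul_of_nonneg_left numeric_choose hcardpos.le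
    have h6 : (G'.edgeFinset.card : ℝ) * 2 = Fintype.card Γ' * 512 := by exact_mod_cast hEd
    have h7 : (G'.edgeFinset.card : ℝ) * (1 / 64) = 4 * Fintype.card Γ' := by linarith
    rw [h7] at hXcard
    linarith
  -- the graph of the surviving edges
  have hXG : ∀ {x y}, s(x, y) ∈ X → G'.Adj x y := by
    intro x y h
    have := hXsub h
    rwa [SimpleGraph.mem_edgeFinset, SimpleGraph.mem_edgeSet] at this
  obtain ⟨E₀, hE₀adj⟩ : ∃ E₀ : SimpleGraph Γ', ∀ {x y}, E₀.Adj x y ↔ s(x, y) ∈ X := by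
    refine ⟨SimpleGraph.fromEdgeSet (X : Set (Sym2 Γ')), ?_⟩
    intro x y
    rw [SimpleGraph.fromEdgeSet_adj]
    constructor
    · exact fun h => h.1
    · exact fun h => ⟨h, (hXG h).ne⟩
  have hsum : ∑ x, (univ.filter (E₀.Adj x)).card = 2 * X.card := by
    have h1 := E₀.sum_degrees_eq_twice_card_edges
    have hE₀edges : E₀.edgeFinset = X := by
      ext e
      induction e using Sym2.ind with
      | _ x y =>
        rw [SimpleGraph.mem_edgeFinset, SimpleGraph.mem_edgeSet]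
        exact hE₀adj
    rw [hE₀edges] at h1
    rw [← h1]
    apply sum_congr rfl
    intro x _
    rw [← SimpleGraph.card_neighborFinset_eq_degree, SimpleGraph.neighborFinset_eq_filter]
  have hbig : 4 * (univ : Finset Γ').card < ∑ x, (univ.filter (E₀.Adj x)).card := by
    rw [hsum, card_univ]
    have : 2 * Fintype.card Γ' < X.card := by exact_mod_cast hXbig
    omega
  obtain ⟨U, -, hUne, hU⟩ := exists_core E₀.Adj (fun x y h => h.symm) univ hbig
  -- maximum degree
  have hmax : ∀ x, (univ.filter (E₀.Adj x)).card ≤ 31 := by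
    intro x
    by_contra hcon
    have h32 : 32 ≤ (univ.filter (E₀.Adj x)).card := by omega
    obtain ⟨N, hN1, hN2⟩ := Finset.exists_subset_card_eq h32
    set F := N.image (fun y => s(x, y)) with hF
    have hFcard : F.card = 32 := by
      rw [hF, card_image_of_injective, hN2]
      intro y z hyz
      exact Sym2.congr_right.mp hyz
    have hFX : F ⊆ X := by
      intro e he
      obtain ⟨y, hy, rfl⟩ := mem_image.mp he
      exact hE₀adj.mp (mem_filter.mp (hN1 hy)).2
    have hFstar : F ⊆ star x := by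
      intro e he
      obtain ⟨y, hy, rfl⟩ := mem_image.mp he
      obtain ⟨l, rfl⟩ := hG'adj.mp (hXG (hE₀adj.mp (mem_filter.mp (hN1 hy)).2))
      rw [hstardef]
      exact mem_image.mpr ⟨l, hLt1 l, rfl⟩
    apply hXbad F _ hFX
    apply mem_union_right
    exact mem_biUnion.mpr ⟨x, mem_univ _, mem_powersetCard.mpr ⟨hFstar, hFcard⟩⟩
  -- projection facts
  have hE₀G : ∀ {x y}, E₀.Adj x y → G'.Adj x y := fun h => hXG (hE₀adj.mp h)
  have hprhom : ∀ {x y}, G'.Adj x y → cd Φ (pr x) (pr y) = 1 := by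
    intro x y h
    obtain ⟨l, rfl⟩ := hG'adj.mp h
    rw [cd_eq_one_iff hs hN]
    exact ⟨l, hprl x l⟩
  -- transport to `Fin n`
  let e := (Fintype.equivFin U).symm
  let f : Fin (Fintype.card U) → Γ' := fun a => (e a : Γ')
  have hfmem : ∀ a, f a ∈ U := fun a => (e a).2
  have hfinj : Function.Injective f := fun a b h => e.injective (Subtype.ext h)
  have hfsurj : ∀ x ∈ U, ∃ a, f a = x := by
    intro x hx
    exact ⟨e.symm ⟨x, hx⟩, by simp [f]⟩
  obtain ⟨adj, hadj⟩ : ∃ adj : SimpleGraph (Fin (Fintype.card U)),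
      ∀ {a b}, adj.Adj a b ↔ E₀.Adj (f a) (f b) := ⟨E₀.comap f, Iff.rfl⟩
  have hcardfilter : ∀ a, (univ.filter (adj.Adj a)).card = (U.filter (E₀.Adj (f a))).card := by
    intro a
    apply Finset.card_bij (fun b _ => f b)
    · intro b hb
      exact mem_filter.mpr ⟨hfmem b, hadj.mp (mem_filter.mp hb).2⟩
    · intro b _ c _ h
      exact hfinj h
    · intro x hx
      obtain ⟨b, hb⟩ := hfsurj x (mem_filter.mp hx).1
      refine ⟨b, mem_filter.mpr ⟨mem_univ _, ?_⟩, hb⟩
      rw [hadj, hb]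
      exact (mem_filter.mp hx).2
  refine ⟨Fintype.card U, adj, fun a => pr (f a), ?_, ?_, ?_, ?_, ?_, ?_⟩
  · rw [Fintype.card_pos_iff]
    exact ⟨⟨_, hUne.choose_spec⟩⟩
  · intro x y h
    exact hprhom (hE₀G (hadj.mp h))
  · intro x y z h1 h2 h3
    exact hfinj (hlocal (hE₀G (hadj.mp h1)) (hE₀G (hadj.mp h2)) h3)
  · intro a
    rw [hcardfilter]
    exact hU _ (hfmem a)
  · intro a
    rw [hcardfilter]
    exact (card_le_card (filter_subset_filter _ (subset_univ _))).trans (hmax _)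
  · intro ζ ξ hξ0 hζ1 hζ2 hξ1 hsame
    set z : ℕ → Γ' := fun i => f (ζ i) with hz
    have hzE : ∀ i, E₀.Adj (z i) (z (i + 1)) := fun i => hadj.mp (hζ1 i)
    have hzG : ∀ i, L'.d (z i) (z (i + 1)) = 1 := fun i => hE₀G (hzE i)
    have hz2 : ∀ i, z (i + 2) ≠ z i := fun i h => hζ2 i (hfinj h)
    have hξB : ∀ i, ξ i ∈ B := by
      intro i
      induction i with
      | zero => exact hξ0
      | succ i ih => exact hB _ ih _ (hξ1 i)
    have hcard : (edgesOf r z).card = r := card_edgesOf L' z hzG hz2 r (by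
      show r + 2 < r + 3
      omega)
    have hshadow : edgesOf r z ∈ shadow up nb r (z 0) (ξ 0) := by
      apply mem_shadow
      · intro i
        exact hup (hE₀G (hzE i)) (hsame (i + 1))
      · intro i
        exact mem_filter.mpr ⟨hξB (i + 1), hξ1 i⟩
    have hsubX : edgesOf r z ⊆ X := by
      intro e' he'
      obtain ⟨i, -, rfl⟩ := mem_image.mp he'
      exact hE₀adj.mp (hzE i)
    apply hXbad _ _ hsubX
    apply mem_union_left
    refine mem_filter.mpr ⟨mem_biUnion.mpr ⟨(z 0, ξ 0), mem_product.mpr ⟨mem_univ _, hξ0⟩, hshadow⟩,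
      hcard⟩

end P090
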