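import Vale.Agent.Lib.P090.Bridge
import Vale.Agent.Lib.P090.Piece
import Vale.Agent.Lib.P090.Metric

/-!
The family of all pieces over a base, and the contradiction at a fixed parameter.
-/

namespace P090

open Finset

section pieces
variable {T : Type} (L : LT T)

open Classical in
/-- A finite graph immersed in the base, with maximum degree at most `31`. -/
structure Piece where
  n : ℕ
  adj : SimpleGraph (Fin n)
  π : Fin n → T
  hom : ∀ x y, adj.Adj x y → L.d (π x) (π y) = 1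
  inj : ∀ x y z, adj.Adj x y → adj.Adj x z → π y = π z → y = z
  deg : ∀ x, (univ.filter (adj.Adj x)).card ≤ 31

/-- The disjoint union of all pieces. -/
abbrev PV : Type := Σ i : Piece L, Fin i.n

/-- The graph on the disjoint union of all pieces. -/
def PG : SimpleGraph (PV L) where
  Adj p q := ∃ (i : Piece L) (x y : Fin i.n), p = ⟨i, x⟩ ∧ q = ⟨i, y⟩ ∧ i.adj.Adj x y
  symm := ⟨by
    rintro _ _ ⟨i, x, y, rfl, rfl, h⟩
    exact ⟨i, y, x, rfl, rfl, h.symm⟩⟩
  loopless := ⟨by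
    rintro _ ⟨i, x, y, rfl, h2, h⟩
    cases h2
    exact h.ne rfl⟩

/-- The projection to the base. -/
def PP : PV L → T := fun p => p.1.π p.2

variable {L}

lemma PG_adj_iff {i : Piece L} {x y : Fin i.n} : (PG L).Adj ⟨i, x⟩ ⟨i, y⟩ ↔ i.adj.Adj x y := by
  constructor
  · rintro ⟨j, x', y', h1, h2, h⟩
    cases h1
    cases h2
    exact h
  · intro h
    exact ⟨i, x, y, rfl, rfl, h⟩

lemma PG_adj_fst {p q : PV L} (h : (PG L).Adj p q) : q.1 = p.1 := by
  obtain ⟨i, x, y, rfl, rfl, _⟩ := h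
  rfl

lemma PG_imm : Imm L (PG L) (PP L) where
  hom := by
    rintro _ _ ⟨i, x, y, rfl, rfl, h⟩
    exact i.hom x y h
  inj := by
    rintro _ _ _ ⟨i, x, y, rfl, rfl, h⟩ ⟨j, x', z, h1, rfl, h'⟩ h2
    cases h1
    have := i.inj x y z h h' h2
    rw [this]

end pieces

/-- The cost of the detour through the base. -/
def rho (C : ℕ) : ℕ := 6 * (C + 1)

/-- The constant in the pinning estimate. -/
def c2 (C : ℕ) : ℕ := 2 * (C + 1) * rho C + 2

/-- The radius of the cut-off. -/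
def wW (C : ℕ) : ℕ := 100 * c2 C

/-- The radius up to which the base must look like a tree. -/
def paramR (C : ℕ) : ℕ := wW C + 2 * rho C + 5

lemma rho_pos (C : ℕ) : 1 ≤ rho C := by unfold rho; omega

lemma c2_pos (C : ℕ) : 1 ≤ c2 C := by unfold c2; omega

lemma rho_le_wW (C : ℕ) : rho C ≤ wW C := by
  unfold wW c2
  have : rho C ≤ 2 * (C + 1) * rho C := by
    have h : 1 ≤ 2 * (C + 1) := by omega
    exact Nat.le_mul_of_pos_left _ h
  omega

lemma numeric_T (C : ℕ) :
    ((C : ℝ) + 1) / (rho C : ℝ) + (2 * (c2 C : ℝ) + 1) / (wW C : ℝ) < 1 / 3 := by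
  have h1 : (rho C : ℝ) = 6 * ((C : ℝ) + 1) := by
    unfold rho; push_cast; ring
  have hC : (0 : ℝ) < (C : ℝ) + 1 := by positivity
  have h2 : ((C : ℝ) + 1) / (rho C : ℝ) = 1 / 6 := by
    rw [h1]; field_simp
  have h3 : (wW C : ℝ) = 100 * (c2 C : ℝ) := by
    unfold wW; push_cast; ring
  have hc : (1 : ℝ) ≤ c2 C := by exact_mod_cast c2_pos C
  have h4 : (2 * (c2 C : ℝ) + 1) / (wW C : ℝ) ≤ 3 / 100 := by
    rw [h3, div_le_div_iff₀ (by positivity) (by norm_num)]
    nlinarith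
  rw [h2]
  linarith

lemma numeric_κ (C : ℕ) : (c2 C : ℝ) / (wW C : ℝ) < 1 / 2 := by
  have h3 : (wW C : ℝ) = 100 * (c2 C : ℝ) := by
    unfold wW; push_cast; ring
  have hc : (1 : ℝ) ≤ c2 C := by exact_mod_cast c2_pos C
  rw [h3, div_lt_iff₀ (by positivity)]
  nlinarith

lemma pairing_eq_of_subset {V : Type} {B' B : Finset V} (h : B' ⊆ B) {c : V → V → ℝ} (φ : V)
    (f : V → ℝ) (hc : ∀ b, b ∉ B' → c φ b = 0) : pairing B c φ f = pairing B' c φ f := by
  unfold pairing
  symm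
  apply sum_subset h
  intro b _ hb
  rw [hc b hb, zero_mul]

open Classical in
/-- The contradiction at a fixed value of the parameter. -/
theorem final_contra {Γ : Type} [Group Γ] [Fintype Γ] (Φ : FreeGroup (Fin 256) →* Γ)
    (hs : Function.Surjective Φ) (hN : NS Φ 2) (L : LT Γ) (hLd : ∀ t s, L.d t s = cd Φ t s)
    (C : ℕ) (hLR : paramR C ≤ L.R) (D : ℝ) (hD : (wW C : ℝ) ≤ D) (lam : ℝ) (h0 : 0 ≤ lam)
    (hC : lam ≤ C)
    (hprop : ∀ A : Finset (PV L), ∃ (B' : Finset (PV L)) (c : PV L → PV L → ℝ),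
      (∀ x b, b ∉ B' → c x b = 0) ∧
      (∀ x y K, 0 ≤ K → ∀ f, TestOK (dW L (PG L) (PP L) (rho C)) D K f →
        |pairing B' c x f - pairing B' c y f| ≤ K * (lam * dW L (PG L) (PP L) (rho C) x y + 1)) ∧
      (∀ x ∈ A, ∀ K, 0 ≤ K → ∀ f, TestOK (dW L (PG L) (PP L) (rho C)) D K f →
        |pairing B' c x f - f x| ≤ K * 2)) : False := by
  -- the anchors
  let e := Fintype.equivFin Γ
  let iA : Piece L := ⟨Fintype.card Γ, ⊥, e.symm, fun x y h => absurd h (by simp),
    fun x y z h => absurd h (by simp), fun x => by simp⟩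
  let aT : Γ → PV L := fun t => ⟨iA, e t⟩
  have haT : ∀ t, PP L (aT t) = t := fun t => e.symm_apply_apply t
  obtain ⟨B', c, hc0, hc1, hc2⟩ := hprop (univ.image aT)
  -- the union of the pieces that meet `B'`
  set B : Finset (PV L) := (B'.image Sigma.fst).sigma (fun _ => univ) with hB
  have hB'B : B' ⊆ B := by
    intro x hx
    exact mem_sigma.mpr ⟨mem_image_of_mem _ hx, mem_univ _⟩
  have hBclosed : ∀ x ∈ B, ∀ y, (PG L).Adj x y → y ∈ B := by
    intro x hx y hxy
    have h1 := (mem_sigma.mp hx).1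
    refine mem_sigma.mpr ⟨?_, mem_univ _⟩
    rw [PG_adj_fst hxy]
    exact h1
  have hBdeg : ∀ x ∈ B, (B.filter ((PG L).Adj x)).card ≤ 31 := by
    rintro ⟨i, a⟩ _
    refine le_trans ?_ (i.deg a)
    have hsub : B.filter ((PG L).Adj ⟨i, a⟩) ⊆
        (univ.filter (i.adj.Adj a)).image (fun b => (⟨i, b⟩ : PV L)) := by
      rintro ⟨j, b⟩ hb
      have h1 := (mem_filter.mp hb).2
      have h2 : j = i := PG_adj_fst h1
      subst h2
      exact mem_image_of_mem _ (mem_filter.mpr ⟨mem_univ _, PG_adj_iff.mp h1⟩)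
    exact (card_le_card hsub).trans card_image_le
  -- the new piece
  obtain ⟨n, adj, π, hn, hhom, hinj, hmin, hmax, hNo⟩ :=
    exists_piece Φ hs hN (PG L) (PP L) B hBclosed hBdeg
  let i₀ : Piece L := ⟨n, adj, π, fun x y h => (hLd _ _).trans (hhom x y h), hinj, hmax⟩
  set E : Finset (PV L) := univ.image (fun x => (⟨i₀, x⟩ : PV L)) with hE
  have hEmem : ∀ {p : PV L}, p ∈ E → ∃ x, p = ⟨i₀, x⟩ := by
    intro p hp
    obtain ⟨x, -, rfl⟩ := mem_image.mp hp
    exact ⟨x, rfl⟩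
  have hEclosed : ∀ x ∈ E, ∀ y, (PG L).Adj x y → y ∈ E := by
    intro x hx y hxy
    obtain ⟨a, rfl⟩ := hEmem hx
    obtain ⟨j, b⟩ := y
    have h2 : j = i₀ := PG_adj_fst hxy
    subst h2
    exact mem_image_of_mem _ (mem_univ b)
  have hR : wW C + 2 * rho C + 5 ≤ L.R := hLR
  have hwD : (rho C : ℝ) ≤ wW C := by exact_mod_cast rho_le_wW C
  have hI := PG_imm (L := L)
  -- the pairing over `B` is the pairing over `B'`
  have hpair : ∀ φ f, pairing B c φ f = pairing B' c φ f :=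
    fun φ f => pairing_eq_of_subset hB'B φ f (hc0 φ)
  have hCnn : (0 : ℝ) ≤ C := by positivity
  have H : CoreHyp L (PG L) (PP L) (dW L (PG L) (PP L) (rho C)) (rho C) (wW C) D
      ((C : ℝ) + 1) (c2 C : ℝ) E B c aT := by
    refine ⟨hI, wdata hI (rho_pos C), hEclosed, hBclosed, haT, ?_, ?_, rho_pos C, rho_le_wW C, hR, hD⟩
    · intro φ _ φ' hadj K hK f hf
      rw [hpair, hpair]
      refine (hc1 φ φ' K hK f hf).trans ?_
      apply mul_le_mul_of_nonneg_left _ hK
      have h1 : (dW L (PG L) (PP L) (rho C) φ φ' : ℝ) ≤ 1 := by exact_mod_cast dW_adj hadj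
      have h2 : (dW L (PG L) (PP L) (rho C) φ φ' : ℝ) ≥ 0 := by positivity
      nlinarith
    · intro φ _ K hK f hf
      rw [hpair]
      have h1 := hc1 φ (aT (PP L φ)) K hK f hf
      have h2 := hc2 (aT (PP L φ)) (mem_image_of_mem _ (mem_univ _)) K hK f hf
      have h3 : dW L (PG L) (PP L) (rho C) φ (aT (PP L φ)) ≤ 2 * rho C := by
        have := dW_le_detour (L := L) (G := PG L) (P := PP L) (ρ := rho C) (x := φ)
          (y := aT (PP L φ))
        rw [haT, L.d_self] at this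
        omega
      have h3' : (dW L (PG L) (PP L) (rho C) φ (aT (PP L φ)) : ℝ) ≤ 2 * (rho C : ℝ) := by
        exact_mod_cast h3
      have h3'' : (0 : ℝ) ≤ dW L (PG L) (PP L) (rho C) φ (aT (PP L φ)) := by positivity
      have h4 : lam * (dW L (PG L) (PP L) (rho C) φ (aT (PP L φ)) : ℝ) + 1 + 2 ≤ c2 C := by
        have hρ1 : (1 : ℝ) ≤ rho C := by exact_mod_cast rho_pos C
        have e1 : (c2 C : ℝ) = 2 * ((C : ℝ) + 1) * (rho C : ℝ) + 2 := by
          unfold c2; push_cast; ring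
        rw [e1]
        nlinarith
      have h5 := abs_add_le (pairing B' c φ f - pairing B' c (aT (PP L φ)) f)
        (pairing B' c (aT (PP L φ)) f - f (aT (PP L φ)))
      rw [sub_add_sub_cancel] at h5
      calc _ ≤ _ := h5
        _ ≤ K * (lam * dW L (PG L) (PP L) (rho C) φ (aT (PP L φ)) + 1) + K * 2 := add_le_add h1 h2
        _ = K * (lam * dW L (PG L) (PP L) (rho C) φ (aT (PP L φ)) + 1 + 2) := by ring
        _ ≤ _ := mul_le_mul_of_nonneg_left h4 hK
  refine core_false H ?_ ?_ ?_ (numeric_T C) (numeric_κ C)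
  · -- no common walk
    intro ζ ξ hζ0 hξ0 hζ1 hζ2 hξ1 hsame
    have hζE : ∀ i, ζ i ∈ E := by
      intro i
      induction i with
      | zero => exact hζ0
      | succ i ih => exact hEclosed _ ih _ (hζ1 i)
    have hex : ∀ i, ∃ x, ζ i = ⟨i₀, x⟩ := fun i => hEmem (hζE i)
    choose z hz using hex
    refine hNo z ξ hξ0 ?_ ?_ hξ1 ?_
    · intro i
      have := hζ1 i
      rw [hz i, hz (i + 1)] at this
      exact PG_adj_iff.mp this
    · intro i h
      apply hζ2 i
      rw [hz i, hz (i + 2), h]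
    · intro i
      have := hsame i
      rw [hz i] at this
      exact this
  · -- minimum degree
    intro φ hφ
    obtain ⟨a, rfl⟩ := hEmem hφ
    refine (hmin a).trans ?_
    apply card_le_card_of_injOn (fun b => (⟨i₀, b⟩ : PV L))
    · intro b hb
      have hb2 := (mem_filter.mp (mem_coe.mp hb)).2
      exact mem_coe.mpr (mem_filter.mpr ⟨mem_image_of_mem _ (mem_univ _), PG_adj_iff.mpr hb2⟩)
    · intro b _ b' _ h
      simpa using h
  · -- nonempty
    exact ⟨⟨i₀, ⟨0, hn⟩⟩, mem_image_of_mem _ (mem_univ _)⟩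

end P090
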