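import Mathlib

/-!
The forest inequality and infinite reduced walks in finite graphs of minimum degree two.
-/

namespace P090

open Finset

open Classical in
/-- The forest inequality, in terms of adjacency counts. -/
lemma forest_ineq {α : Type} (A : α → α → Prop) (irr : ∀ p, ¬ A p p) (sym : ∀ p q, A p q → A q p)
    (f : α → ℝ) (hf : ∀ p, 0 ≤ f p) (S : Finset α)
    (hS : ∀ S' ⊆ S, S'.Nonempty → ∃ p ∈ S', (S'.filter (A p)).card ≤ 1) :
    ∑ p ∈ S, (((S.filter (A p)).card : ℝ) - 2) * f p ≤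
      (1 / 2) * ∑ p ∈ S, ∑ p' ∈ S.filter (A p), |f p - f p'| := by
  induction' hn : S.card using Nat.strong_induction_on with n ih generalizing S
  by_cases hne : S.Nonempty
  · obtain ⟨p₀, hp₀, hdeg⟩ := hS S (Subset.refl _) hne
    set S' := S.erase p₀ with hS'
    have hcard : S'.card < n := by
      rw [hS', card_erase_of_mem hp₀, ← hn]
      have := card_pos.mpr hne
      omega
    have hIH := ih S'.card hcard S' (fun U hU hU' => hS U (hU.trans (erase_subset _ _)) hU') rfl
    have hins : S = insert p₀ S' := (insert_erase hp₀).symm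
    have hnot : p₀ ∉ S' := notMem_erase _ _
    -- rewrite counts with indicator sums
    have count : ∀ (U : Finset α) (p : α), ((U.filter (A p)).card : ℝ) =
        ∑ p' ∈ U, (if A p p' then (1 : ℝ) else 0) := by
      intro U p
      rw [Finset.card_filter]
      push_cast
      rfl
    have tv : ∀ (U : Finset α) (p : α), ∑ p' ∈ U.filter (A p), |f p - f p'| =
        ∑ p' ∈ U, (if A p p' then |f p - f p'| else 0) := by
      intro U p
      rw [Finset.sum_filter]
    simp only [count, tv] at hIH ⊢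
    have hdeg' : ∑ p' ∈ S', (if A p₀ p' then (1 : ℝ) else 0) ≤ 1 := by
      have h1 : ((S'.filter (A p₀)).card : ℝ) ≤ 1 := by
        have : (S'.filter (A p₀)).card ≤ (S.filter (A p₀)).card :=
          card_le_card (filter_subset_filter _ (erase_subset _ _))
        have h2 : (S'.filter (A p₀)).card ≤ 1 := this.trans hdeg
        exact_mod_cast h2
      rwa [count] at h1
    rw [hins, sum_insert hnot]
    simp only [sum_insert hnot, if_neg (irr p₀), add_zero, zero_add]
    have hsym : ∀ p, (if A p p₀ then (1 : ℝ) else 0) = if A p₀ p then (1 : ℝ) else 0 := by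
      intro p
      by_cases h : A p₀ p
      · rw [if_pos h, if_pos (sym _ _ h)]
      · rw [if_neg h, if_neg (fun h' => h (sym _ _ h'))]
    have hsym2 : ∀ p, (if A p p₀ then |f p - f p₀| else 0) = if A p₀ p then |f p₀ - f p| else 0 := by
      intro p
      by_cases h : A p₀ p
      · rw [if_pos h, if_pos (sym _ _ h), abs_sub_comm]
      · rw [if_neg h, if_neg (fun h' => h (sym _ _ h'))]
    simp only [hsym, hsym2]
    -- expand the sums over `S'`
    have e1 : ∑ p ∈ S', ((if A p₀ p then (1 : ℝ) else 0) + ∑ p' ∈ S', (if A p p' then (1 : ℝ) else 0) - 2) * f p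
        = ∑ p ∈ S', (if A p₀ p then (1 : ℝ) else 0) * f p +
          ∑ p ∈ S', (∑ p' ∈ S', (if A p p' then (1 : ℝ) else 0) - 2) * f p := by
      rw [← sum_add_distrib]
      apply sum_congr rfl
      intro p _
      ring
    have e2 : ∑ p ∈ S', ((if A p₀ p then |f p₀ - f p| else 0) + ∑ p' ∈ S', (if A p p' then |f p - f p'| else 0))
        = ∑ p ∈ S', (if A p₀ p then |f p₀ - f p| else 0) +
          ∑ p ∈ S', ∑ p' ∈ S', (if A p p' then |f p - f p'| else 0) := by
      rw [sum_add_distrib]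
    rw [e1, e2]
    -- the key term-wise bound
    have key : ∑ p ∈ S', (if A p₀ p then (1 : ℝ) else 0) * f p ≤
        (∑ p ∈ S', (if A p₀ p then (1 : ℝ) else 0)) * f p₀ +
          ∑ p ∈ S', (if A p₀ p then |f p₀ - f p| else 0) := by
      rw [sum_mul, ← sum_add_distrib]
      apply sum_le_sum
      intro p _
      by_cases h : A p₀ p
      · simp only [if_pos h, one_mul]
        have := neg_abs_le (f p₀ - f p)
        linarith
      · simp only [if_neg h, zero_mul, add_zero, le_refl]
    have hfp := hf p₀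
    set a := ∑ p ∈ S', (if A p₀ p then (1 : ℝ) else 0) with ha
    have h3 : (a - 2) * f p₀ + a * f p₀ ≤ 0 := by nlinarith
    nlinarith
  · rw [not_nonempty_iff_eq_empty] at hne
    subst hne
    simp

/-- In a finite set where every point has at least two neighbours there is an infinite
reduced walk. -/
lemma exists_reduced_seq {α : Type} (A : α → α → Prop) (S : Finset α) (hne : S.Nonempty)
    (h2 : ∀ p ∈ S, ∀ p', ∃ p'' ∈ S, A p p'' ∧ p'' ≠ p') :
    ∃ u : ℕ → α, (∀ i, u i ∈ S) ∧ (∀ i, A (u i) (u (i + 1))) ∧ (∀ i, u (i + 2) ≠ u i) := by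
  classical
  obtain ⟨p₀, hp₀⟩ := hne
  -- iterate on pairs in `S`
  let Q := {x : α × α // x.1 ∈ S ∧ x.2 ∈ S ∧ A x.1 x.2}
  obtain ⟨p₁, hp₁, hA, -⟩ := h2 p₀ hp₀ p₀
  have step : ∀ x : Q, ∃ y : Q, y.1.1 = x.1.2 ∧ y.1.2 ≠ x.1.1 := by
    rintro ⟨⟨a, b⟩, ha, hb, hab⟩
    obtain ⟨c, hc, hbc, hne⟩ := h2 b hb a
    exact ⟨⟨⟨b, c⟩, hb, hc, hbc⟩, rfl, hne⟩
  choose nxt hnxt1 hnxt2 using step
  let x₀ : Q := ⟨⟨p₀, p₁⟩, hp₀, hp₁, hA⟩
  let seq : ℕ → Q := fun n => nxt^[n] x₀
  have hseq : ∀ n, seq (n + 1) = nxt (seq n) := fun n => Function.iterate_succ_apply' _ _ _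
  refine ⟨fun n => (seq n).1.1, fun n => (seq n).2.1, ?_, ?_⟩
  · intro i
    have : (seq (i + 1)).1.1 = (seq i).1.2 := by rw [hseq]; exact hnxt1 _
    simp only [this]
    exact (seq i).2.2.2
  · intro i
    have h1 : (seq (i + 2)).1.1 = (seq (i + 1)).1.2 := by rw [hseq]; exact hnxt1 _
    have h3 : (seq (i + 1)).1.2 ≠ (seq i).1.1 := by rw [hseq]; exact hnxt2 _
    simp only [h1]
    exact h3

end P090
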