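import Vale.Agent.Lib.P090.Test
import Vale.Agent.Lib.P090.Forest

/-!
The lower bound: a far piece cannot be mapped to finitely many earlier pieces by a map
with small Lipschitz constant that is pinned at the anchor points.
-/

namespace P090

open Finset

section
variable {T : Type} {L : LT T} {V : Type} {G : SimpleGraph V} {P : V → T}

/-- Pair relation: partner roots over adjacent points. -/
def PairRel (L : LT T) (G : SimpleGraph V) (P : V → T) (w : ℕ) (p p' : V × V) : Prop :=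
  G.Adj p.1 p'.1 ∧ par L G P (P p.1) p.2 = p.2 ∧ lev L P (P p.1) p.2 ≤ w ∧
    par L G P (P p'.1) p'.2 = p'.2 ∧ lev L P (P p'.1) p'.2 ≤ w ∧
    p'.2 = root L G P (P p'.1) p.2

lemma PairRel.back (hI : Imm L G P) {w : ℕ} (hw : w + 5 < L.R) {p p' : V × V}
    (h : PairRel L G P w p p') : p.2 = root L G P (P p.1) p'.2 := by
  obtain ⟨h1, h2, h3, _, _, h6⟩ := h
  have htt : L.d (P p'.1) (P p.1) = 1 := hI.hom h1.symm
  have hl : lev L P (P p'.1) p.2 ≤ lev L P (P p.1) p.2 + 1 := by
    have := L.d_tri (P p'.1) (P p.1) (P p.2)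
    rw [htt] at this
    unfold lev; omega
  have := root_root hI htt p.2 (by omega)
  rw [← h6, root_of_par h2] at this
  exact this.symm

lemma PairRel.symm (hI : Imm L G P) {w : ℕ} (hw : w + 5 < L.R) {p p' : V × V}
    (h : PairRel L G P w p p') : PairRel L G P w p' p := by
  have h' := h.back hI hw
  obtain ⟨h1, h2, h3, h4, h5, h6⟩ := h
  exact ⟨h1.symm, h4, h5, h2, h3, h'⟩

/-- From a finite set of pairs where all have two neighbours we would get a common walk. -/
lemma pair_degenerate (hI : Imm L G P) {w : ℕ} (hw : w + 5 < L.R) {E B : Finset V}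
    (hNoCommon : ∀ ζ ξ : ℕ → V, ζ 0 ∈ E → ξ 0 ∈ B → (∀ i, G.Adj (ζ i) (ζ (i + 1))) →
      (∀ i, ζ (i + 2) ≠ ζ i) → (∀ i, G.Adj (ξ i) (ξ (i + 1))) → (∀ i, P (ζ i) = P (ξ i)) → False)
    (S' : Finset (V × V)) (hS' : S' ⊆ E ×ˢ B) (hne : S'.Nonempty) :
    ∃ p ∈ S', (open Classical in (S'.filter (PairRel L G P w p)).card) ≤ 1 := by
  classical
  by_contra hcon
  have h2 : ∀ p ∈ S', ∀ p', ∃ p'' ∈ S', PairRel L G P w p p'' ∧ p'' ≠ p' := by
    intro p hp p'
    have h3 : 1 < (S'.filter (PairRel L G P w p)).card := by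
      by_contra h4
      exact hcon ⟨p, hp, not_lt.mp h4⟩
    obtain ⟨b, hb, hb'⟩ := Finset.exists_mem_ne h3 p'
    rw [mem_filter] at hb
    exact ⟨b, hb.1, hb.2, hb'⟩
  obtain ⟨u, hu1, hu2, hu3⟩ := exists_reduced_seq (PairRel L G P w) S' hne h2
  have hC : Chain L G P w (fun i => (u i).1) (fun i => (u i).2) := by
    refine ⟨fun i => (hu2 i).1, ?_, fun i => (hu2 i).2.1, fun i => (hu2 i).2.2.1,
      fun i => (hu2 i).2.2.2.2.2⟩
    intro i heq
    apply hu3 i
    have h4 := (hu2 (i + 1)).2.2.2.2.2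
    have h5 := (hu2 i).back hI hw
    apply Prod.ext heq
    rw [h4, heq, ← h5]
  have hsh := fun i (hi : w ≤ i) => hC.shadow hI hw i hi
  have hmem := hS' (hu1 w)
  rw [mem_product] at hmem
  refine hNoCommon (fun j => (u (w + j)).1) (fun j => (u (w + j)).2) hmem.1 hmem.2 ?_ ?_ ?_ ?_
  · intro i; exact (hu2 (w + i)).1
  · intro i; exact hC.hnb (w + i)
  · intro i; exact (hsh (w + i) (by omega)).1
  · intro i; exact (hsh (w + i) (by omega)).2.symm

/-- The pairing of coefficients with a test function. -/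
noncomputable def pairing (B : Finset V) (c : V → V → ℝ) (φ : V) (f : V → ℝ) : ℝ :=
  ∑ b ∈ B, c φ b * f b

open Classical in
/-- The part of the mass of `φ` in the class of `q`, cut off at the centre of `φ`. -/
noncomputable def lump (L : LT T) (G : SimpleGraph V) (P : V → T) (w : ℕ) (B : Finset V)
    (c : V → V → ℝ) (φ q : V) : ℝ :=
  ∑ b ∈ B, if root L G P (P φ) b = q then c φ b * chi L P w (P φ) b else 0

/-- All hypotheses of the lower bound. -/
structure CoreHyp (L : LT T) (G : SimpleGraph V) (P : V → T) (dW : V → V → ℕ) (ρ w : ℕ)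
    (D C₁ C₂ : ℝ) (E B : Finset V) (c : V → V → ℝ) (a : T → V) : Prop where
  hI : Imm L G P
  hW : WData L G P dW ρ
  hE : ∀ x ∈ E, ∀ y, G.Adj x y → y ∈ E
  hB : ∀ x ∈ B, ∀ y, G.Adj x y → y ∈ B
  hPa : ∀ t, P (a t) = t
  hLip : ∀ φ ∈ E, ∀ φ', G.Adj φ φ' → ∀ K, 0 ≤ K → ∀ f, TestOK dW D K f →
    |pairing B c φ f - pairing B c φ' f| ≤ K * C₁
  hPin : ∀ φ ∈ E, ∀ K, 0 ≤ K → ∀ f, TestOK dW D K f →
    |pairing B c φ f - f (a (P φ))| ≤ K * C₂
  hρ : 1 ≤ ρ
  hρw : ρ ≤ w
  hR : w + 2 * ρ + 5 ≤ L.R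
  hD : (w : ℝ) ≤ D

variable {dW : V → V → ℕ} {ρ w : ℕ} {D C₁ C₂ : ℝ} {E B : Finset V} {c : V → V → ℝ} {a : T → V}

lemma CoreHyp.w_pos (H : CoreHyp L G P dW ρ w D C₁ C₂ E B c a) : (0 : ℝ) < w := by
  have : 1 ≤ w := H.hρ.trans H.hρw
  exact_mod_cast this

lemma CoreHyp.rho_pos (H : CoreHyp L G P dW ρ w D C₁ C₂ E B c a) : (0 : ℝ) < ρ := by
  exact_mod_cast H.hρ

lemma lump_mass (H : CoreHyp L G P dW ρ w D C₁ C₂ E B c a) {φ : V} (hφ : φ ∈ E) :
    1 - C₂ / w ≤ ∑ q ∈ B, |lump L G P w B c φ q| := by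
  classical
  have hw := H.w_pos
  have h1 : ∑ q ∈ B, lump L G P w B c φ q = pairing B c φ (chi L P w (P φ)) := by
    unfold lump pairing
    rw [Finset.sum_comm]
    apply sum_congr rfl
    intro b hb
    rw [Finset.sum_ite_eq, if_pos (root_mem B H.hB _ hb)]
  have h2 := H.hPin φ hφ (1 / (w : ℝ)) (by positivity) _
    (test_chi H.hW (H.hρ.trans H.hρw) H.hD (P φ))
  rw [chi_self (H.hPa _)] at h2
  have h3 := (abs_le.mp h2).1
  have h4 := Finset.abs_sum_le_sum_abs (fun q => lump L G P w B c φ q) B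
  rw [h1] at h4
  have h5 := le_abs_self (pairing B c φ (chi L P w (P φ)))
  have e : 1 / (w : ℝ) * C₂ = C₂ / w := by ring
  rw [e] at h3
  linarith

/-- Change of centre in the classes. -/
lemma lump_term (H : CoreHyp L G P dW ρ w D C₁ C₂ E B c a) {t t' : T} (htt : L.d t t' = 1)
    {q b : V} (hq : par L G P t q = q) (hqw : lev L P t q ≤ w) (z : ℝ) :
    (open Classical in if root L G P t' b = root L G P t' q then z * chi L P w t' b else 0) =
      (open Classical in if root L G P t b = q then z * chi L P w t' b else 0) := by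
  classical
  have hwR : w + 5 < L.R := by have := H.hR; have := H.hρ; omega
  have htt' : L.d t' t = 1 := by rw [L.d_comm]; exact htt
  by_cases hb : w ≤ lev L P t' b
  · rw [chi_eq_zero (H.hρ.trans H.hρw) hb]
    simp
  · have hb' : lev L P t' b < w := not_le.mp hb
    have hlq : lev L P t' q ≤ w + 1 := by
      have := L.d_tri t' t (P q)
      rw [htt'] at this
      unfold lev at *
      omega
    have hlb : lev L P t b ≤ w := by
      have := L.d_tri t t' (P b)
      rw [htt] at this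
      unfold lev at *
      omega
    have hiff : root L G P t' b = root L G P t' q ↔ root L G P t b = q := by
      constructor
      · intro h
        have h1 := root_root H.hI htt' b (by omega)
        have h2 := root_root H.hI htt' q (by omega)
        rw [h, h2, root_of_par hq] at h1
        exact h1.symm
      · intro h
        rw [← root_root H.hI htt b (by omega), h]
    by_cases h : root L G P t b = q
    · rw [if_pos h, if_pos (hiff.mpr h)]
    · rw [if_neg h, if_neg (fun h' => h (hiff.mp h'))]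

/-- The total variation bound along an edge. -/
lemma tv_bound (H : CoreHyp L G P dW ρ w D C₁ C₂ E B c a) {φ φ' : V} (hφ : φ ∈ E)
    (hadj : G.Adj φ φ') (Q : Finset V)
    (hQ : ∀ q ∈ Q, par L G P (P φ) q = q ∧ lev L P (P φ) q ≤ w) :
    ∑ q ∈ Q, |lump L G P w B c φ q - lump L G P w B c φ' (root L G P (P φ') q)| ≤
      C₁ / ρ + (2 * C₂ + 1) / w := by
  classical
  have hw := H.w_pos
  have hρ := H.rho_pos
  have hφ' : φ' ∈ E := H.hE φ hφ φ' hadj
  have htt : L.d (P φ) (P φ') = 1 := H.hI.hom hadj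
  set t := P φ with ht
  set t' := P φ' with ht'
  set x : V → ℝ := fun q => lump L G P w B c φ q - lump L G P w B c φ' (root L G P t' q) with hx
  set θ : V → ℝ := fun q => if q ∈ Q then (if 0 ≤ x q then 1 else -1) else 0 with hθdef
  have hθ : ∀ q, |θ q| ≤ 1 := by
    intro q
    simp only [hθdef]
    split_ifs <;> simp
  have h1 : ∑ q ∈ Q, |x q| = ∑ q ∈ Q, θ q * x q := by
    apply sum_congr rfl
    intro q hq
    simp only [hθdef, if_pos hq]
    split_ifs with h
    · rw [abs_of_nonneg h, one_mul]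
    · rw [abs_of_neg (not_le.mp h)]; ring
  set y : V → ℝ := fun b => c φ b * chi L P w t b - c φ' b * chi L P w t' b with hy
  have h2 : ∀ q ∈ Q, x q = ∑ b ∈ B, if root L G P t b = q then y b else 0 := by
    intro q hq
    simp only [hx, lump]
    rw [← ht, ← ht', ← sum_sub_distrib]
    apply sum_congr rfl
    intro b _
    rw [lump_term H htt (hQ q hq).1 (hQ q hq).2 (c φ' b)]
    by_cases h : root L G P t b = q
    · simp only [if_pos h, hy]
    · simp only [if_neg h, sub_zero]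
  have h3 : ∑ q ∈ Q, θ q * x q = ∑ b ∈ B, θ (root L G P t b) * y b := by
    have : ∑ q ∈ Q, θ q * x q = ∑ q ∈ Q, ∑ b ∈ B, if root L G P t b = q then θ q * y b else 0 := by
      apply sum_congr rfl
      intro q hq
      rw [h2 q hq, mul_sum]
      apply sum_congr rfl
      intro b _
      split_ifs <;> simp
    rw [this, sum_comm]
    apply sum_congr rfl
    intro b _
    rw [Finset.sum_ite_eq]
    split_ifs with h
    · rfl
    · simp only [hθdef, if_neg h, zero_mul]
  set g₁ : V → ℝ := fun b => θ (root L G P t b) * chi L P w t b with hg₁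
  set g₂ : V → ℝ := fun b => θ (root L G P t b) * (chi L P w t b - chi L P w t' b) with hg₂
  have h4 : ∑ b ∈ B, θ (root L G P t b) * y b =
      (pairing B c φ g₁ - pairing B c φ' g₁) + pairing B c φ' g₂ := by
    simp only [pairing]
    rw [← sum_sub_distrib, ← sum_add_distrib]
    apply sum_congr rfl
    intro b _
    simp only [hy, hg₁, hg₂]
    ring
  have hT₁ : TestOK dW D (1 / (ρ : ℝ)) g₁ := by
    have hρD : (ρ : ℝ) ≤ D := by
      have : (ρ : ℝ) ≤ w := by exact_mod_cast H.hρw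
      linarith [H.hD]
    exact test_g1 H.hI H.hW hθ t H.hρ H.hρw (by have := H.hR; omega) hρD
  have hT₂ : TestOK dW D (2 / (w : ℝ)) g₂ := by
    have h1w : (1 : ℝ) ≤ w := by exact_mod_cast (H.hρ.trans H.hρw)
    exact test_g2 H.hW hθ htt (H.hρ.trans H.hρw) (by linarith [H.hD])
  have h5 := H.hLip φ hφ φ' hadj (1 / (ρ : ℝ)) (by positivity) g₁ hT₁
  have h6 := H.hPin φ' hφ' (2 / (w : ℝ)) (by positivity) g₂ hT₂
  have h7 : |g₂ (a t')| ≤ 1 / (w : ℝ) := by
    simp only [hg₂]
    rw [abs_mul]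
    calc _ ≤ 1 * (1 / (w : ℝ)) :=
          mul_le_mul (hθ _) (chi_center_sub_le w (H.hρ.trans H.hρw) htt _) (abs_nonneg _) zero_le_one
      _ = _ := one_mul _
  have h8 : |pairing B c φ' g₂| ≤ (2 / (w : ℝ)) * C₂ + 1 / (w : ℝ) := by
    have := abs_add_le (pairing B c φ' g₂ - g₂ (a t')) (g₂ (a t'))
    rw [sub_add_cancel] at this
    linarith
  calc ∑ q ∈ Q, |x q| = (pairing B c φ g₁ - pairing B c φ' g₁) + pairing B c φ' g₂ := by
        rw [h1, h3, h4]
    _ ≤ |pairing B c φ g₁ - pairing B c φ' g₁| + |pairing B c φ' g₂| :=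
        add_le_add (le_abs_self _) (le_abs_self _)
    _ ≤ 1 / (ρ : ℝ) * C₁ + ((2 / (w : ℝ)) * C₂ + 1 / (w : ℝ)) := add_le_add h5 h8
    _ = C₁ / ρ + (2 * C₂ + 1) / w := by ring

open Classical in
/-- Sum bound over the pair relation at a fixed `φ`. -/
lemma pair_sum_bound (H : CoreHyp L G P dW ρ w D C₁ C₂ E B c a) {φ : V} (hφ : φ ∈ E) :
    ∑ q ∈ B, ∑ p' ∈ (E ×ˢ B).filter (PairRel L G P w (φ, q)),
        |(|lump L G P w B c φ q|) - (|lump L G P w B c p'.1 p'.2|)| ≤
      ((E.filter (G.Adj φ)).card : ℝ) * (C₁ / ρ + (2 * C₂ + 1) / w) := by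
  set Q := B.filter (fun q => par L G P (P φ) q = q ∧ lev L P (P φ) q ≤ w) with hQdef
  have h1 : ∀ q ∈ B, ∑ p' ∈ (E ×ˢ B).filter (PairRel L G P w (φ, q)),
        |(|lump L G P w B c φ q|) - (|lump L G P w B c p'.1 p'.2|)| ≤
      if q ∈ Q then ∑ φ' ∈ E.filter (G.Adj φ),
        |lump L G P w B c φ q - lump L G P w B c φ' (root L G P (P φ') q)| else 0 := by
    intro q hq
    by_cases hqQ : q ∈ Q
    · rw [if_pos hqQ]
      have hsub : (E ×ˢ B).filter (PairRel L G P w (φ, q)) ⊆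
          (E.filter (G.Adj φ)).image (fun φ' => (φ', root L G P (P φ') q)) := by
        intro p' hp'
        rw [mem_filter, mem_product] at hp'
        obtain ⟨⟨h2, _⟩, h3⟩ := hp'
        rw [mem_image]
        refine ⟨p'.1, mem_filter.mpr ⟨h2, h3.1⟩, ?_⟩
        exact Prod.ext rfl h3.2.2.2.2.2.symm
      have hinj : Set.InjOn (fun φ' => (φ', root L G P (P φ') q))
          (E.filter (G.Adj φ) : Set V) := by
        intro u _ v _ huv
        exact (Prod.ext_iff.mp huv).1
      calc _ ≤ ∑ p' ∈ (E.filter (G.Adj φ)).image (fun φ' => (φ', root L G P (P φ') q)),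
            |(|lump L G P w B c φ q|) - (|lump L G P w B c p'.1 p'.2|)| :=
            sum_le_sum_of_subset_of_nonneg hsub (fun _ _ _ => abs_nonneg _)
        _ = ∑ φ' ∈ E.filter (G.Adj φ),
            |(|lump L G P w B c φ q|) - (|lump L G P w B c φ' (root L G P (P φ') q)|)| :=
            sum_image hinj
        _ ≤ _ := sum_le_sum (fun _ _ => abs_abs_sub_abs_le _ _)
    · rw [if_neg hqQ]
      have hempty : (E ×ˢ B).filter (PairRel L G P w (φ, q)) = ∅ := by
        rw [filter_eq_empty_iff]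
        intro p' _ h3
        exact hqQ (mem_filter.mpr ⟨hq, h3.2.1, h3.2.2.1⟩)
      rw [hempty, sum_empty]
  have h2 : ∑ q ∈ B, (if q ∈ Q then ∑ φ' ∈ E.filter (G.Adj φ),
        |lump L G P w B c φ q - lump L G P w B c φ' (root L G P (P φ') q)| else 0) =
      ∑ q ∈ Q, ∑ φ' ∈ E.filter (G.Adj φ),
        |lump L G P w B c φ q - lump L G P w B c φ' (root L G P (P φ') q)| := by
    rw [← sum_filter]
    apply sum_congr _ (fun _ _ => rfl)
    ext q
    simp only [mem_filter, hQdef]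
    tauto
  calc _ ≤ ∑ q ∈ B, (if q ∈ Q then ∑ φ' ∈ E.filter (G.Adj φ),
        |lump L G P w B c φ q - lump L G P w B c φ' (root L G P (P φ') q)| else 0) :=
        sum_le_sum h1
    _ = ∑ φ' ∈ E.filter (G.Adj φ), ∑ q ∈ Q,
        |lump L G P w B c φ q - lump L G P w B c φ' (root L G P (P φ') q)| := by
        rw [h2, sum_comm]
    _ ≤ ∑ φ' ∈ E.filter (G.Adj φ), (C₁ / ρ + (2 * C₂ + 1) / w) := by
        apply sum_le_sum
        intro φ' hφ'
        apply tv_bound H hφ (mem_filter.mp hφ').2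
        intro q hq
        exact (mem_filter.mp hq).2
    _ = _ := by rw [sum_const, nsmul_eq_mul]

open Classical in
/-- A point with nonzero lump has the full number of partners. -/
lemma deg_pair_ge (H : CoreHyp L G P dW ρ w D C₁ C₂ E B c a) {φ q : V}
    (hf : lump L G P w B c φ q ≠ 0) :
    (E.filter (G.Adj φ)).card ≤ ((E ×ˢ B).filter (PairRel L G P w (φ, q))).card := by
  have hw1 : 1 ≤ w := H.hρ.trans H.hρw
  have hwR : w + 5 < L.R := by have := H.hR; have := H.hρ; omega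
  obtain ⟨b, hb, hbne⟩ : ∃ b ∈ B, (if root L G P (P φ) b = q then
      c φ b * chi L P w (P φ) b else 0) ≠ 0 := by
    by_contra hcon
    push Not at hcon
    exact hf (sum_eq_zero hcon)
  have hr : root L G P (P φ) b = q := by
    by_contra hne
    exact hbne (if_neg hne)
  have hχ : chi L P w (P φ) b ≠ 0 := by
    intro h0
    apply hbne
    rw [if_pos hr, h0, mul_zero]
  have hlb : lev L P (P φ) b < w := by
    by_contra hge
    exact hχ (chi_eq_zero hw1 (not_lt.mp hge))
  have hqB : q ∈ B := hr ▸ root_mem B H.hB _ hb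
  have hq1 : par L G P (P φ) q = q := hr ▸ par_root _ _
  have hq2 : lev L P (P φ) q < w := by
    have := lev_root_le (L := L) (G := G) (P := P) (P φ) b
    rw [hr] at this
    omega
  apply Finset.card_le_card_of_injOn (fun φ' => (φ', root L G P (P φ') q))
  · intro φ' hφ'
    have hφ'2 := mem_filter.mp hφ'
    simp only [mem_coe, mem_filter, mem_product]
    refine ⟨⟨hφ'2.1, root_mem B H.hB _ hqB⟩, hφ'2.2, hq1, hq2.le, par_root _ _, ?_, rfl⟩
    show lev L P (P φ') (root L G P (P φ') q) ≤ w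
    have h1 := lev_root_le (L := L) (G := G) (P := P) (P φ') q
    have h2 := L.d_tri (P φ') (P φ) (P q)
    rw [L.d_comm (P φ') (P φ), H.hI.hom hφ'2.2] at h2
    unfold lev at *
    omega
  · intro u _ v _ huv
    exact (Prod.ext_iff.mp huv).1

open Classical in
/-- **The lower bound.** -/
theorem core_false (H : CoreHyp L G P dW ρ w D C₁ C₂ E B c a)
    (hNoCommon : ∀ ζ ξ : ℕ → V, ζ 0 ∈ E → ξ 0 ∈ B → (∀ i, G.Adj (ζ i) (ζ (i + 1))) →
      (∀ i, ζ (i + 2) ≠ ζ i) → (∀ i, G.Adj (ξ i) (ξ (i + 1))) → (∀ i, P (ζ i) = P (ξ i)) → False)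
    (hDeg : ∀ φ ∈ E, 3 ≤ (E.filter (G.Adj φ)).card) (hNE : E.Nonempty)
    (hT : C₁ / ρ + (2 * C₂ + 1) / w < 1 / 3) (hκ : C₂ / w < 1 / 2) : False := by
  have hwR : w + 5 < L.R := by have := H.hR; have := H.hρ; omega
  set T₀ := C₁ / ρ + (2 * C₂ + 1) / w with hT₀
  set κ := C₂ / w with hκdef
  set f : V × V → ℝ := fun p => |lump L G P w B c p.1 p.2| with hf
  set N : V → ℝ := fun φ => ((E.filter (G.Adj φ)).card : ℝ) with hN
  have hN3 : ∀ φ ∈ E, (3 : ℝ) ≤ N φ := by
    intro φ hφ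
    have := hDeg φ hφ
    simp only [hN]
    exact_mod_cast this
  have hforest := forest_ineq (PairRel L G P w) (fun p h => (G.loopless.irrefl _) h.1)
    (fun p q h => h.symm H.hI hwR) f (fun p => abs_nonneg _) (E ×ˢ B)
    (fun S' hS' hne => pair_degenerate H.hI hwR hNoCommon S' hS' hne)
  -- the right side
  have hR : ∑ p ∈ E ×ˢ B, ∑ p' ∈ (E ×ˢ B).filter (PairRel L G P w p), |f p - f p'| ≤
      ∑ φ ∈ E, N φ * T₀ := by
    rw [sum_product]
    apply sum_le_sum
    intro φ hφ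
    exact pair_sum_bound H hφ
  -- the left side
  have hL : ∑ φ ∈ E, (N φ - 2) * (1 - κ) ≤
      ∑ p ∈ E ×ˢ B, (((E ×ˢ B).filter (PairRel L G P w p)).card - 2 : ℝ) * f p := by
    rw [sum_product]
    apply sum_le_sum
    intro φ hφ
    have h1 := lump_mass H hφ
    have h2 : (0 : ℝ) ≤ N φ - 2 := by linarith [hN3 φ hφ]
    calc (N φ - 2) * (1 - κ) ≤ (N φ - 2) * ∑ q ∈ B, f (φ, q) :=
          mul_le_mul_of_nonneg_left h1 h2
      _ = ∑ q ∈ B, (N φ - 2) * f (φ, q) := by rw [mul_sum]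
      _ ≤ _ := by
        apply sum_le_sum
        intro q _
        by_cases hq : lump L G P w B c φ q = 0
        · simp only [hf, hq, abs_zero, mul_zero, le_refl]
        · apply mul_le_mul_of_nonneg_right _ (abs_nonneg _)
          have := deg_pair_ge H hq
          simp only [hN]
          have h3 : ((E.filter (G.Adj φ)).card : ℝ) ≤
              (((E ×ˢ B).filter (PairRel L G P w (φ, q))).card : ℝ) := by exact_mod_cast this
          linarith
  -- combine
  have hmain : ∑ φ ∈ E, (N φ - 2) * (1 - κ) ≤ (1 / 2) * ∑ φ ∈ E, N φ * T₀ := by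
    refine hL.trans (hforest.trans ?_)
    exact mul_le_mul_of_nonneg_left hR (by norm_num)
  have hpos : 0 < ∑ φ ∈ E, N φ := by
    apply sum_pos (fun φ hφ => by linarith [hN3 φ hφ]) hNE
  have h1 : ∑ φ ∈ E, N φ * (1 / 6) ≤ ∑ φ ∈ E, (N φ - 2) * (1 - κ) := by
    apply sum_le_sum
    intro φ hφ
    have h2 := hN3 φ hφ
    nlinarith
  have h3 : ∑ φ ∈ E, N φ * (1 / 6) = (∑ φ ∈ E, N φ) * (1 / 6) := by rw [sum_mul]
  have h4 : ∑ φ ∈ E, N φ * T₀ = (∑ φ ∈ E, N φ) * T₀ := by rw [sum_mul]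
  rw [h4] at hmain
  rw [h3] at h1
  nlinarith

end

end P090
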