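import Vale.Agent.Lib.P090.FA
import Vale.Agent.Lib.P090.Core

/-!
From the bounded approximation property to finitely supported coefficients.
-/

namespace P090

open Finset

section
variable {M : Type} [MetricSpace M] {o : M}

open Classical in
/-- The bounded approximation property gives finitely supported almost-Lipschitz coefficients. -/
theorem bap_coeffs (hB : HasBAP (FreeSpace M o)) :
    ∃ lam : ℝ, 0 ≤ lam ∧ ∀ {V : Type} (ι : V → M) (_ : Function.Injective ι) (dW : V → V → ℕ)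
      (D : ℝ) (_ : ∀ x y, dist (ι x) (ι y) = dW x y) (_ : ∀ x, dist (ι x) o ≤ D)
      (_ : ∀ K : ℝ, 0 ≤ K → ∀ f : V → ℝ, TestOK dW D K f → ∃ g : Lip0 M o, ‖g‖ ≤ K ∧
        (∀ x, g.1 (ι x) = f x) ∧ ∀ m, m ∉ Set.range ι → g.1 m = 0)
      (A : Finset V),
      ∃ (B' : Finset V) (c : V → V → ℝ), (∀ x b, b ∉ B' → c x b = 0) ∧
        (∀ x y K, 0 ≤ K → ∀ f, TestOK dW D K f →
          |pairing B' c x f - pairing B' c y f| ≤ K * (lam * dW x y + 1)) ∧
        (∀ x ∈ A, ∀ K, 0 ≤ K → ∀ f, TestOK dW D K f →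
          |pairing B' c x f - f x| ≤ K * 2) := by
  obtain ⟨lam, hlam, hT⟩ := hB
  refine ⟨lam, by linarith, ?_⟩
  intro V ι hι dW D hd hD hext A
  obtain ⟨T, hTf, hTn, hTK⟩ := hT (↑(A.image (fun a => delt o (ι a))))
    (Finset.finite_toSet _).isCompact 1 one_pos
  have he : ∀ x, ‖delt o (ι x)‖ ≤ D := fun x => (norm_delt_le _).trans (hD x)
  obtain ⟨t, ht⟩ := exists_finite_net T hTf (fun x => delt o (ι x)) he (η := 1 / 4) (by norm_num)
  obtain ⟨B₀, c₀, hc₀⟩ := exists_coeffs (fun x => T (delt o (ι x))) t (η := 1 / 2) (by norm_num)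
    (fun i => by
      obtain ⟨y, hy, hy2⟩ := ht i
      exact ⟨y, hy, by linarith⟩)
  set B' : Finset V := B₀.preimage ι hι.injOn with hB'
  have key : ∀ (f : V → ℝ) (g : Lip0 M o), (∀ x, g.1 (ι x) = f x) →
      (∀ m, m ∉ Set.range ι → g.1 m = 0) → ∀ z,
      pairing B' (fun x b => if ι b ∈ B₀ then c₀ x (ι b) else 0) z f =
        ∑ m ∈ B₀, c₀ z m * g.1 m := by
    intro f g hg2 hg3 z
    unfold pairing
    have h1 : ∀ b ∈ B', (if ι b ∈ B₀ then c₀ z (ι b) else 0) * f b = c₀ z (ι b) * g.1 (ι b) := by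
      intro b hb
      rw [if_pos (mem_preimage.mp hb), hg2]
    rw [sum_congr rfl h1]
    exact sum_preimage ι B₀ hι.injOn (fun m => c₀ z m * g.1 m)
      (fun m _ hm => by rw [hg3 m hm, mul_zero])
  refine ⟨B', fun x b => if ι b ∈ B₀ then c₀ x (ι b) else 0, ?_, ?_, ?_⟩
  · intro x b hb
    have : ι b ∉ B₀ := fun h => hb (mem_preimage.mpr h)
    simp only [if_neg this]
  · intro x y K hK f hf
    obtain ⟨g, hg1, hg2, hg3⟩ := hext K hK f hf
    have hgK : ∀ a : ℝ, 0 ≤ a → a * ‖g‖ ≤ a * K := fun a ha => mul_le_mul_of_nonneg_left hg1 ha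
    have h2 := hc₀ x g
    have h3 := hc₀ y g
    rw [← key f g hg2 hg3 x] at h2
    rw [← key f g hg2 hg3 y] at h3
    have h4 := apply_le_norm (T (delt o (ι x)) - T (delt o (ι y))) g
    have h5 : ‖T (delt o (ι x)) - T (delt o (ι y))‖ ≤ lam * dW x y := by
      have e : T (delt o (ι x)) - T (delt o (ι y)) = T (delt o (ι x) - delt o (ι y)) :=
        (map_sub T _ _).symm
      rw [e, ← hd x y]
      refine (T.le_opNorm _).trans ?_
      exact mul_le_mul_of_nonneg hTn (norm_delt_sub_le _ _) (norm_nonneg _) dist_nonneg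
    have h6 : |((T (delt o (ι x)) - T (delt o (ι y)) : FreeSpace M o) : StrongDual ℝ (Lip0 M o)) g| ≤
        lam * dW x y * K := by
      refine h4.trans ?_
      have hdn : (0 : ℝ) ≤ lam * dW x y := mul_nonneg (by linarith) (by positivity)
      exact (mul_le_mul_of_nonneg_right h5 (norm_nonneg g)).trans (hgK _ hdn)
    have e1 : ((T (delt o (ι x)) - T (delt o (ι y)) : FreeSpace M o) : StrongDual ℝ (Lip0 M o)) g =
        ((T (delt o (ι x)) : FreeSpace M o) : StrongDual ℝ (Lip0 M o)) g -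
        ((T (delt o (ι y)) : FreeSpace M o) : StrongDual ℝ (Lip0 M o)) g := rfl
    rw [e1] at h6
    have h7 := hgK (1 / 2) (by norm_num)
    rw [abs_le] at h2 h3 h6 ⊢
    constructor <;> nlinarith [h2.1, h2.2, h3.1, h3.2, h6.1, h6.2]
  · intro x hx K hK f hf
    obtain ⟨g, hg1, hg2, hg3⟩ := hext K hK f hf
    have hgK : ∀ a : ℝ, 0 ≤ a → a * ‖g‖ ≤ a * K := fun a ha => mul_le_mul_of_nonneg_left hg1 ha
    have h2 := hc₀ x g
    rw [← key f g hg2 hg3 x] at h2
    have h3 : ‖T (delt o (ι x)) - delt o (ι x)‖ < 1 := by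
      apply hTK
      rw [Finset.mem_coe]
      exact mem_image_of_mem _ hx
    have h4 := apply_le_norm (T (delt o (ι x)) - delt o (ι x)) g
    have h5 : |((T (delt o (ι x)) - delt o (ι x) : FreeSpace M o) : StrongDual ℝ (Lip0 M o)) g| ≤ K := by
      refine h4.trans ?_
      have h6 := mul_le_mul_of_nonneg_right h3.le (norm_nonneg g)
      have h7 := hgK 1 zero_le_one
      linarith
    have e1 : ((T (delt o (ι x)) - delt o (ι x) : FreeSpace M o) : StrongDual ℝ (Lip0 M o)) g =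
        ((T (delt o (ι x)) : FreeSpace M o) : StrongDual ℝ (Lip0 M o)) g - f x := by
      rw [← hg2 x]
      rfl
    rw [e1] at h5
    have h7 := hgK (1 / 2) (by norm_num)
    rw [abs_le] at h2 h5 ⊢
    constructor <;> linarith [h2.1, h2.2, h5.1, h5.2]

end

end P090
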