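import Mathlib

/-!
Lipschitz-free spaces and the bounded approximation property.
-/

namespace P090

section
variable (M : Type) [MetricSpace M] (o : M)

/-- The real vector space of Lipschitz functions `M → ℝ` vanishing at the base point `o`. -/
def lipSubmodule : Submodule ℝ (M → ℝ) where
  carrier := {f | f o = 0 ∧ ∃ K : ℝ, ∀ x y, |f x - f y| ≤ K * dist x y}
  add_mem' := by
    rintro f g ⟨hf, K, hK⟩ ⟨hg, K', hK'⟩
    refine ⟨by simp [hf, hg], K + K', fun x y => ?_⟩
    have h := abs_add_le (f x - f y) (g x - g y)
    have e : (f + g) x - (f + g) y = (f x - f y) + (g x - g y) := by simp only [Pi.add_apply]; ring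
    rw [e, add_mul]
    linarith [hK x y, hK' x y]
  zero_mem' := ⟨rfl, 0, fun x y => by simp⟩
  smul_mem' := by
    rintro c f ⟨hf, K, hK⟩
    refine ⟨by simp [hf], |c| * K, fun x y => ?_⟩
    have e : (c • f) x - (c • f) y = c * (f x - f y) := by simp only [Pi.smul_apply, smul_eq_mul]; ring
    rw [e, abs_mul, mul_assoc]
    exact mul_le_mul_of_nonneg_left (hK x y) (abs_nonneg c)

/-- `Lip₀(M)`: Lipschitz functions on `M` vanishing at `o`. -/
def Lip0 : Type := lipSubmodule M o

noncomputable instance : AddCommGroup (Lip0 M o) := inferInstanceAs (AddCommGroup (lipSubmodule M o))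

noncomputable instance : Module ℝ (Lip0 M o) := inferInstanceAs (Module ℝ (lipSubmodule M o))

/-- The norm of `Lip₀(M)`: the supremum of the difference quotients, that is, the Lipschitz
constant. -/
noncomputable instance : Norm (Lip0 M o) where
  norm f := ⨆ p : M × M, |f.1 p.1 - f.1 p.2| / dist p.1 p.2

variable {M o}

lemma lip_bdd (f : Lip0 M o) :
    BddAbove (Set.range (fun p : M × M => |f.1 p.1 - f.1 p.2| / dist p.1 p.2)) := by
  obtain ⟨K, hK⟩ := f.2.2
  refine ⟨max K 0, ?_⟩
  rintro _ ⟨p, rfl⟩
  simp only
  apply div_le_of_le_mul₀ dist_nonneg (le_max_right _ _)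
  exact (hK p.1 p.2).trans (mul_le_mul_of_nonneg_right (le_max_left _ _) dist_nonneg)

lemma lip_quot_le (f : Lip0 M o) (x y : M) : |f.1 x - f.1 y| / dist x y ≤ ‖f‖ :=
  le_ciSup (lip_bdd f) (x, y)

lemma lip_sub_le (f : Lip0 M o) (x y : M) : |f.1 x - f.1 y| ≤ ‖f‖ * dist x y := by
  by_cases h : x = y
  · subst h
    simp
  · have hd : 0 < dist x y := dist_pos.mpr h
    exact (div_le_iff₀ hd).mp (lip_quot_le f x y)

lemma lip_norm_le (f : Lip0 M o) {K : ℝ} (hK : 0 ≤ K) (h : ∀ x y, |f.1 x - f.1 y| ≤ K * dist x y) :
    ‖f‖ ≤ K := by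
  have : Nonempty (M × M) := ⟨(o, o)⟩
  apply ciSup_le
  intro p
  exact div_le_of_le_mul₀ dist_nonneg hK (h p.1 p.2)

lemma lip_norm_nonneg (f : Lip0 M o) : 0 ≤ ‖f‖ := by
  refine le_trans ?_ (lip_quot_le f o o)
  simp

variable (M o) in
/-- The norm axioms. -/
lemma lip_core : NormedSpace.Core ℝ (Lip0 M o) where
  norm_nonneg := lip_norm_nonneg
  norm_smul := by
    intro c f
    apply le_antisymm
    · apply lip_norm_le _ (mul_nonneg (norm_nonneg c) (lip_norm_nonneg f))
      intro x y
      have e : (c • f).1 x - (c • f).1 y = c * (f.1 x - f.1 y) := by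
        show c * f.1 x - c * f.1 y = _
        ring
      rw [e, abs_mul, Real.norm_eq_abs, mul_assoc]
      exact mul_le_mul_of_nonneg_left (lip_sub_le f x y) (abs_nonneg c)
    · rw [Real.norm_eq_abs]
      by_cases hc : c = 0
      · subst hc
        simp only [abs_zero, zero_mul]
        exact lip_norm_nonneg _
      · have hc' : 0 < |c| := abs_pos.mpr hc
        rw [← le_div_iff₀' hc']
        apply lip_norm_le _ (div_nonneg (lip_norm_nonneg _) (abs_nonneg c))
        intro x y
        have h1 := lip_sub_le (c • f) x y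
        have e : (c • f).1 x - (c • f).1 y = c * (f.1 x - f.1 y) := by
          show c * f.1 x - c * f.1 y = _
          ring
        rw [e, abs_mul] at h1
        rw [div_mul_eq_mul_div, le_div_iff₀' hc']
        exact h1
  norm_triangle := by
    intro f g
    apply lip_norm_le _ (add_nonneg (lip_norm_nonneg f) (lip_norm_nonneg g))
    intro x y
    have e : (f + g).1 x - (f + g).1 y = (f.1 x - f.1 y) + (g.1 x - g.1 y) := by
      show (f.1 x + g.1 x) - (f.1 y + g.1 y) = _
      ring
    rw [e, add_mul]
    exact (abs_add_le _ _).trans (add_le_add (lip_sub_le f x y) (lip_sub_le g x y))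
  norm_eq_zero_iff := by
    intro f
    constructor
    · intro h
      apply Subtype.ext
      funext x
      have h1 := lip_sub_le f x o
      rw [h, zero_mul, f.2.1, sub_zero] at h1
      exact abs_nonpos_iff.mp h1
    · intro h
      subst h
      apply le_antisymm
      · apply lip_norm_le _ le_rfl
        intro x y
        have e : (0 : Lip0 M o).1 x - (0 : Lip0 M o).1 y = 0 := by
          show (0 : ℝ) - 0 = 0
          ring
        rw [e]
        simp
      · exact lip_norm_nonneg _

noncomputable instance : NormedAddCommGroup (Lip0 M o) := NormedAddCommGroup.ofCore (lip_core M o)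

noncomputable instance : NormedSpace ℝ (Lip0 M o) := NormedSpace.ofCore (lip_core M o)

variable (o) in
/-- Evaluation at `x`, as an element of the dual of `Lip₀(M)`. -/
noncomputable def evalDual (x : M) : StrongDual ℝ (Lip0 M o) :=
  LinearMap.mkContinuous
    { toFun := fun f => f.1 x
      map_add' := fun _ _ => rfl
      map_smul' := fun _ _ => rfl }
    (dist x o)
    (by
      intro f
      have h := lip_sub_le f x o
      rw [f.2.1, sub_zero] at h
      rw [Real.norm_eq_abs, mul_comm]
      exact h)

variable (M o) in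
/-- The Lipschitz-free space: the closed linear span of the evaluations in the dual of
`Lip₀(M)`. -/
noncomputable def FreeSpace : Submodule ℝ (StrongDual ℝ (Lip0 M o)) :=
  (Submodule.span ℝ (Set.range (evalDual o))).topologicalClosure

/-- The bounded approximation property of a real normed space: for some `lam ≥ 1`, every norm
compact set is approximated by finite rank bounded linear operators of norm at most `lam`. -/
def HasBAP (X : Type) [NormedAddCommGroup X] [NormedSpace ℝ X] : Prop :=
  ∃ lam : ℝ, 1 ≤ lam ∧ ∀ K : Set X, IsCompact K → ∀ ε : ℝ, 0 < ε →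
    ∃ T : X →L[ℝ] X, FiniteDimensional ℝ (LinearMap.range T.toLinearMap) ∧ ‖T‖ ≤ lam ∧
      ∀ u ∈ K, ‖T u - u‖ < ε

end

end P090
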