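import Vale.Agent.Lib.P090.Defs

/-!
From finite rank operators to finitely supported approximate values.
-/

namespace P090

open Finset

section
variable {M : Type} [MetricSpace M] {o : M}

/-- The evaluation at `x`, as an element of the free space. -/
noncomputable def delt (o : M) (x : M) : FreeSpace M o :=
  ⟨evalDual o x, Submodule.le_topologicalClosure _ (Submodule.subset_span ⟨x, rfl⟩)⟩

lemma evalDual_apply (x : M) (g : Lip0 M o) : evalDual o x g = g.1 x := rfl

lemma delt_apply (x : M) (g : Lip0 M o) : (delt o x : StrongDual ℝ (Lip0 M o)) g = g.1 x := rfl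

lemma norm_evalDual_le (x : M) : ‖evalDual o x‖ ≤ dist x o := by
  apply ContinuousLinearMap.opNorm_le_bound _ dist_nonneg
  intro f
  have h := lip_sub_le f x o
  rw [f.2.1, sub_zero] at h
  rw [evalDual_apply, Real.norm_eq_abs, mul_comm]
  exact h

lemma norm_delt_le (x : M) : ‖delt o x‖ ≤ dist x o := norm_evalDual_le x

lemma norm_delt_sub_le (x y : M) : ‖delt o x - delt o y‖ ≤ dist x y := by
  show ‖evalDual o x - evalDual o y‖ ≤ dist x y
  apply ContinuousLinearMap.opNorm_le_bound _ dist_nonneg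
  intro f
  have h := lip_sub_le f x y
  show |f.1 x - f.1 y| ≤ _
  rw [mul_comm]
  exact h

lemma apply_le_norm (u : FreeSpace M o) (g : Lip0 M o) :
    |(u : StrongDual ℝ (Lip0 M o)) g| ≤ ‖u‖ * ‖g‖ :=
  (u : StrongDual ℝ (Lip0 M o)).le_opNorm g

/-- Elements of the span of the evaluations are finite combinations. -/
lemma exists_finsupp_of_mem_closure (y : FreeSpace M o) {η : ℝ} (hη : 0 < η) :
    ∃ cf : M →₀ ℝ, ∀ g : Lip0 M o,
      |(y : StrongDual ℝ (Lip0 M o)) g - cf.sum (fun b a => a * g.1 b)| ≤ η * ‖g‖ := by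
  have hy : (y : StrongDual ℝ (Lip0 M o)) ∈
      closure ((Submodule.span ℝ (Set.range (evalDual (o := o)))) : Set (StrongDual ℝ (Lip0 M o))) :=
    y.2
  obtain ⟨z, hz, hyz⟩ := Metric.mem_closure_iff.mp hy η hη
  have hz' : z ∈ Submodule.span ℝ (Set.range (evalDual (o := o))) := hz
  rw [Finsupp.mem_span_range_iff_exists_finsupp] at hz'
  obtain ⟨cf, rfl⟩ := hz'
  refine ⟨cf, fun g => ?_⟩
  have h1 : (cf.sum fun i a => a • evalDual o i) g = cf.sum (fun b a => a * g.1 b) := by
    unfold Finsupp.sum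
    rw [_root_.sum_apply]
    apply sum_congr rfl
    intro b _
    rfl
  rw [← h1]
  have h2 := ((y : StrongDual ℝ (Lip0 M o)) - cf.sum fun i a => a • evalDual o i).le_opNorm g
  rw [dist_eq_norm] at hyz
  have h3 : ‖((y : StrongDual ℝ (Lip0 M o)) - cf.sum fun i a => a • evalDual o i)‖ * ‖g‖ ≤ η * ‖g‖ :=
    mul_le_mul_of_nonneg_right hyz.le (norm_nonneg g)
  exact h2.trans h3

open Classical in
/-- A family that is uniformly close to a finite set of the free space is uniformly close to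
combinations of finitely many evaluations. -/
lemma exists_coeffs {ι : Type} (u : ι → FreeSpace M o) (t : Finset (FreeSpace M o)) {η : ℝ}
    (hη : 0 < η) (ht : ∀ i, ∃ y ∈ t, ‖u i - y‖ < η / 2) :
    ∃ (B₀ : Finset M) (c : ι → M → ℝ), ∀ i (g : Lip0 M o),
      |(u i : StrongDual ℝ (Lip0 M o)) g - ∑ b ∈ B₀, c i b * g.1 b| ≤ η * ‖g‖ := by
  have h1 : ∀ y : FreeSpace M o, ∃ cf : M →₀ ℝ, ∀ g : Lip0 M o,
      |(y : StrongDual ℝ (Lip0 M o)) g - cf.sum (fun b a => a * g.1 b)| ≤ (η / 2) * ‖g‖ :=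
    fun y => exists_finsupp_of_mem_closure y (half_pos hη)
  choose cf hcf using h1
  choose y hyt hyb using ht
  set B₀ : Finset M := t.biUnion (fun v => (cf v).support) with hB₀
  refine ⟨B₀, fun i b => cf (y i) b, fun i g => ?_⟩
  have hsub : (cf (y i)).support ⊆ B₀ := by
    intro b hb
    exact mem_biUnion.mpr ⟨y i, hyt i, hb⟩
  have h3 : ∑ b ∈ B₀, cf (y i) b * g.1 b = (cf (y i)).sum (fun b a => a * g.1 b) := by
    unfold Finsupp.sum
    symm
    apply sum_subset hsub
    intro b _ hb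
    have h0 : cf (y i) b = 0 := Finsupp.notMem_support_iff.mp hb
    show cf (y i) b * g.1 b = 0
    rw [h0, zero_mul]
  rw [h3]
  have h4 := hcf (y i) g
  have h5 : |((u i - y i : FreeSpace M o) : StrongDual ℝ (Lip0 M o)) g| ≤ (η / 2) * ‖g‖ :=
    (apply_le_norm _ g).trans (mul_le_mul_of_nonneg_right (hyb i).le (norm_nonneg g))
  have e1 : (u i : StrongDual ℝ (Lip0 M o)) g - (cf (y i)).sum (fun b a => a * g.1 b) =
      ((u i - y i : FreeSpace M o) : StrongDual ℝ (Lip0 M o)) g +
      ((y i : StrongDual ℝ (Lip0 M o)) g - (cf (y i)).sum (fun b a => a * g.1 b)) := by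
    show _ = ((u i : StrongDual ℝ (Lip0 M o)) g - (y i : StrongDual ℝ (Lip0 M o)) g) + _
    ring
  rw [e1]
  refine (abs_add_le _ _).trans ?_
  have e2 : η * ‖g‖ = (η / 2) * ‖g‖ + (η / 2) * ‖g‖ := by ring
  rw [e2]
  exact add_le_add h5 h4

end

section generic
variable {X : Type} [NormedAddCommGroup X] [NormedSpace ℝ X]

/-- The values of a finite rank bounded operator on a bounded family lie near a finite set. -/
lemma exists_finite_net {ι : Type} (T : X →L[ℝ] X)
    (hT : FiniteDimensional ℝ (LinearMap.range T.toLinearMap)) (e : ι → X) {D : ℝ}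
    (he : ∀ i, ‖e i‖ ≤ D) {η : ℝ} (hη : 0 < η) :
    ∃ t : Finset X, ∀ i, ∃ y ∈ t, ‖T (e i) - y‖ < η := by
  classical
  set Z := LinearMap.range T.toLinearMap with hZ
  have hprop : ProperSpace Z := FiniteDimensional.proper ℝ Z
  set K' : Set X := (fun z : Z => (z : X)) '' Metric.closedBall 0 (‖T‖ * D) with hK'
  have hK'c : IsCompact K' := (isCompact_closedBall _ _).image continuous_subtype_val
  have hmem : ∀ i, T (e i) ∈ K' := by
    intro i
    refine ⟨⟨T (e i), LinearMap.mem_range_self T.toLinearMap (e i)⟩, ?_, rfl⟩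
    rw [mem_closedBall_zero_iff]
    show ‖T (e i)‖ ≤ _
    exact (T.le_opNorm _).trans (mul_le_mul_of_nonneg_left (he i) (norm_nonneg _))
  obtain ⟨t, -, htf, htc⟩ := hK'c.finite_cover_balls hη
  refine ⟨htf.toFinset, fun i => ?_⟩
  have := htc (hmem i)
  simp only [Set.mem_iUnion, exists_prop] at this
  obtain ⟨y, hy, hy2⟩ := this
  refine ⟨y, htf.mem_toFinset.mpr hy, ?_⟩
  rwa [Metric.mem_ball, dist_eq_norm] at hy2

end generic

end P090
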