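import Vale.Agent.Lib.P090.Tree

/-!
Free group facts, high girth finite quotients and the local tree structure of their Cayley graphs.
-/

namespace P090

section free
variable {α : Type} [DecidableEq α]

/-- The element of the free group given by one letter. -/
def letter (l : α × Bool) : FreeGroup α := FreeGroup.mk [l]

lemma norm_letter (l : α × Bool) : FreeGroup.norm (letter l) = 1 := by
  unfold letter FreeGroup.norm
  rw [FreeGroup.toWord_mk]
  rfl

lemma letter_mul_toWord (l : α × Bool) (x : FreeGroup α) :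
    FreeGroup.toWord (letter l * x) =
      List.casesOn (FreeGroup.toWord x) [l] fun hd tl =>
        if l.1 = hd.1 ∧ l.2 = not hd.2 then tl else l :: hd :: tl := by
  have h1 : letter l * x = FreeGroup.mk (l :: FreeGroup.toWord x) := by
    conv_lhs => rw [← FreeGroup.mk_toWord (x := x)]
    unfold letter
    rw [FreeGroup.mul_mk]
    rfl
  rw [h1, FreeGroup.toWord_mk, FreeGroup.reduce.cons, FreeGroup.reduce_toWord]

lemma norm_letter_mul (l : α × Bool) (x : FreeGroup α) :
    FreeGroup.norm (letter l * x) = FreeGroup.norm x + 1 ∨ FreeGroup.norm (letter l * x) + 1 = FreeGroup.norm x := by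
  unfold FreeGroup.norm
  rw [letter_mul_toWord]
  cases h : FreeGroup.toWord x with
  | nil => left; rfl
  | cons hd tl =>
    by_cases hc : l.1 = hd.1 ∧ l.2 = not hd.2
    · right; simp only [if_pos hc, List.length_cons]
    · left; simp only [if_neg hc, List.length_cons]

lemma letter_unique (l₁ l₂ : α × Bool) (x : FreeGroup α)
    (h₁ : FreeGroup.norm (letter l₁ * x) + 1 = FreeGroup.norm x) (h₂ : FreeGroup.norm (letter l₂ * x) + 1 = FreeGroup.norm x) : l₁ = l₂ := by
  unfold FreeGroup.norm at h₁ h₂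
  rw [letter_mul_toWord] at h₁ h₂
  cases h : FreeGroup.toWord x with
  | nil => rw [h] at h₁; simp at h₁
  | cons hd tl =>
    rw [h] at h₁ h₂
    have key : ∀ l : α × Bool, List.length (List.casesOn (hd :: tl) [l] fun hd tl =>
        if l.1 = hd.1 ∧ l.2 = not hd.2 then tl else l :: hd :: tl) + 1 = (hd :: tl).length →
        l.1 = hd.1 ∧ l.2 = not hd.2 := by
      intro l hl
      by_contra hc
      simp only [if_neg hc, List.length_cons] at hl
      omega
    have h3 := key l₁ h₁
    have h4 := key l₂ h₂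
    exact Prod.ext (h3.1.trans h4.1.symm) (h3.2.trans h4.2.symm)

lemma exists_letter_norm_lt {x : FreeGroup α} (hx : x ≠ 1) :
    ∃ l : α × Bool, FreeGroup.norm (letter l * x) + 1 = FreeGroup.norm x := by
  cases h : FreeGroup.toWord x with
  | nil => exact absurd (FreeGroup.toWord_eq_nil_iff.mp h) hx
  | cons hd tl =>
    refine ⟨(hd.1, not hd.2), ?_⟩
    unfold FreeGroup.norm
    rw [letter_mul_toWord, h]
    simp

lemma eq_letter_of_norm_one {y : FreeGroup α} (hy : FreeGroup.norm y = 1) : ∃ l : α × Bool, y = letter l := by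
  unfold FreeGroup.norm at hy
  obtain ⟨l, hl⟩ := List.length_eq_one_iff.mp hy
  refine ⟨l, ?_⟩
  unfold letter
  rw [← hl, FreeGroup.mk_toWord]

/-- The inverse letter. -/
def invLetter (l : α × Bool) : α × Bool := (l.1, not l.2)

lemma letter_inv (l : α × Bool) : (letter l)⁻¹ = letter (invLetter l) := by
  unfold letter invLetter
  rw [FreeGroup.inv_mk]
  rfl

lemma letter_inj {l₁ l₂ : α × Bool} (h : letter l₁ = letter l₂) : l₁ = l₂ := by
  have h1 := congrArg FreeGroup.toWord h
  unfold letter at h1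
  rw [FreeGroup.toWord_mk, FreeGroup.toWord_mk] at h1
  simpa using h1

end free

section cayley
variable {α : Type} [DecidableEq α] {Γ : Type} [Group Γ]

/-- No nontrivial element of the free group of length at most `r` is killed. -/
def NS (Φ : FreeGroup α →* Γ) (r : ℕ) : Prop := ∀ x : FreeGroup α, x ≠ 1 → FreeGroup.norm x ≤ r → Φ x ≠ 1

open Classical in
/-- The word length in `Γ`. -/
noncomputable def wlen (Φ : FreeGroup α →* Γ) (g : Γ) : ℕ :=
  sInf {n | ∃ x, Φ x = g ∧ FreeGroup.norm x = n}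

variable {Φ : FreeGroup α →* Γ}

lemma wlen_le {x : FreeGroup α} {g : Γ} (h : Φ x = g) : wlen Φ g ≤ FreeGroup.norm x :=
  Nat.sInf_le ⟨x, h, rfl⟩

lemma exists_min (hs : Function.Surjective Φ) (g : Γ) : ∃ x, Φ x = g ∧ FreeGroup.norm x = wlen Φ g := by
  obtain ⟨x, hx⟩ := hs g
  have hne : {n | ∃ x, Φ x = g ∧ FreeGroup.norm x = n}.Nonempty := ⟨_, x, hx, rfl⟩
  exact Nat.sInf_mem hne

lemma wlen_inv_le (hs : Function.Surjective Φ) (g : Γ) : wlen Φ g⁻¹ ≤ wlen Φ g := by
  obtain ⟨x, hx, hx'⟩ := exists_min hs g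
  rw [← hx', ← FreeGroup.norm_inv_eq]
  exact wlen_le (by rw [map_inv, hx])

lemma wlen_inv (hs : Function.Surjective Φ) (g : Γ) : wlen Φ g⁻¹ = wlen Φ g := by
  apply le_antisymm (wlen_inv_le hs g)
  have := wlen_inv_le hs g⁻¹
  rwa [inv_inv] at this

lemma wlen_mul_le (hs : Function.Surjective Φ) (g h : Γ) : wlen Φ (g * h) ≤ wlen Φ g + wlen Φ h := by
  obtain ⟨x, hx, hx'⟩ := exists_min hs g
  obtain ⟨y, hy, hy'⟩ := exists_min hs h
  rw [← hx', ← hy']
  exact (wlen_le (by rw [map_mul, hx, hy])).trans (FreeGroup.norm_mul_le x y)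

lemma wlen_eq_norm (hs : Function.Surjective Φ) {m : ℕ} (hN : NS Φ (2 * m)) {x : FreeGroup α}
    (hx : FreeGroup.norm x ≤ m) : wlen Φ (Φ x) = FreeGroup.norm x := by
  obtain ⟨y, hy, hy'⟩ := exists_min hs (Φ x)
  have hle : FreeGroup.norm y ≤ FreeGroup.norm x := by rw [hy']; exact wlen_le rfl
  by_cases hxy : y⁻¹ * x = 1
  · have : y = x := by
      rw [inv_mul_eq_one] at hxy
      exact hxy
    rw [← hy', this]
  · exfalso
    apply hN _ hxy
    · have := FreeGroup.norm_mul_le y⁻¹ x
      rw [FreeGroup.norm_inv_eq] at this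
      omega
    · rw [map_mul, map_inv, hy, inv_mul_cancel]

/-- The distance in the Cayley graph. -/
noncomputable def cd (Φ : FreeGroup α →* Γ) (t s : Γ) : ℕ := wlen Φ (s * t⁻¹)

lemma cd_step (hs : Function.Surjective Φ) (t s : Γ) (n : ℕ) (h : cd Φ t s = n + 1) :
    ∃ s', cd Φ t s' = n ∧ cd Φ s' s = 1 := by
  obtain ⟨x, hx, hx'⟩ := exists_min hs (s * t⁻¹)
  have hx1 : x ≠ 1 := by
    intro h1
    rw [h1, FreeGroup.norm_one] at hx'
    unfold cd at h
    omega
  obtain ⟨l, hl⟩ := exists_letter_norm_lt hx1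
  set y := letter l * x with hy
  have hn : FreeGroup.norm y = n := by
    unfold cd at h
    omega
  have hxy : x = letter (invLetter l) * y := by
    rw [hy, ← letter_inv, inv_mul_cancel_left]
  set s' := Φ y * t with hs'
  have h1 : cd Φ t s' ≤ n := by
    unfold cd
    rw [hs', mul_inv_cancel_right, ← hn]
    exact wlen_le rfl
  have hs2 : s = Φ (letter (invLetter l)) * s' := by
    have h3 : s = Φ x * t := by rw [hx, inv_mul_cancel_right]
    rw [h3, hxy, map_mul, hs', mul_assoc]
  have h2 : cd Φ s' s ≤ 1 := by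
    unfold cd
    rw [hs2, mul_inv_cancel_right, ← norm_letter (invLetter l)]
    exact wlen_le rfl
  have h3 : cd Φ t s ≤ cd Φ t s' + cd Φ s' s := by
    unfold cd
    have : s * t⁻¹ = (s * s'⁻¹) * (s' * t⁻¹) := by group
    rw [this, add_comm]
    exact wlen_mul_le hs _ _
  exact ⟨s', by omega, by omega⟩

/-- The local tree structure of the Cayley graph of `Φ`. -/
noncomputable def mkLT (Φ : FreeGroup α →* Γ) (hs : Function.Surjective Φ) (R : ℕ)
    (hN : NS Φ (2 * (R + 1))) : LT Γ where
  d := cd Φ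
  d_self := by
    intro t
    unfold cd
    rw [mul_inv_cancel]
    have : wlen Φ 1 ≤ FreeGroup.norm (1 : FreeGroup α) := wlen_le (map_one Φ)
    rw [FreeGroup.norm_one] at this
    omega
  d_eq := by
    intro t s h
    unfold cd at h
    obtain ⟨x, hx, hx'⟩ := exists_min hs (s * t⁻¹)
    rw [h, FreeGroup.norm_eq_zero] at hx'
    rw [hx', map_one] at hx
    exact (mul_inv_eq_one.mp hx.symm).symm
  d_comm := by
    intro t s
    unfold cd
    rw [← wlen_inv hs (s * t⁻¹)]
    simp
  d_tri := by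
    intro t s u
    unfold cd
    have : u * t⁻¹ = (u * s⁻¹) * (s * t⁻¹) := by group
    rw [this, add_comm]
    exact wlen_mul_le hs _ _
  exists_step := cd_step hs
  R := R
  step := by
    intro c s s' h1 h2
    obtain ⟨x, hx, hx'⟩ := exists_min hs (s * c⁻¹)
    obtain ⟨y, hy, hy'⟩ := exists_min hs (s' * s⁻¹)
    unfold cd at *
    rw [h2] at hy'
    obtain ⟨l, rfl⟩ := eq_letter_of_norm_one hy'
    have e : s' * c⁻¹ = Φ (letter l * x) := by
      rw [map_mul, hy, hx]; group
    rw [e, wlen_eq_norm hs hN, ← hx']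
    · exact norm_letter_mul l x
    · rcases norm_letter_mul l x with h | h <;> omega
  par_uniq := by
    intro c s s₁ s₂ h1 h2 h3 h4 h5
    obtain ⟨x, hx, hx'⟩ := exists_min hs (s * c⁻¹)
    obtain ⟨y₁, hy₁, hy₁'⟩ := exists_min hs (s₁ * s⁻¹)
    obtain ⟨y₂, hy₂, hy₂'⟩ := exists_min hs (s₂ * s⁻¹)
    unfold cd at *
    rw [h2] at hy₁'
    rw [h3] at hy₂'
    obtain ⟨l₁, rfl⟩ := eq_letter_of_norm_one hy₁'
    obtain ⟨l₂, rfl⟩ := eq_letter_of_norm_one hy₂'
    have e₁ : s₁ * c⁻¹ = Φ (letter l₁ * x) := by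
      rw [map_mul, hy₁, hx]; group
    have e₂ : s₂ * c⁻¹ = Φ (letter l₂ * x) := by
      rw [map_mul, hy₂, hx]; group
    have hb₁ : FreeGroup.norm (letter l₁ * x) ≤ R + 1 := by
      rcases norm_letter_mul l₁ x with h | h <;> omega
    have hb₂ : FreeGroup.norm (letter l₂ * x) ≤ R + 1 := by
      rcases norm_letter_mul l₂ x with h | h <;> omega
    rw [e₁, wlen_eq_norm hs hN hb₁, ← hx'] at h4
    rw [e₂, wlen_eq_norm hs hN hb₂, ← hx'] at h5
    have hl := letter_unique l₁ l₂ x h4 h5
    subst hl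
    have : s₁ * s⁻¹ = s₂ * s⁻¹ := by rw [← hy₁, ← hy₂]
    exact mul_right_cancel this

end cayley

section exist
variable {k : ℕ}

/-- The ball of radius `r` in the free group. -/
abbrev Ball (k r : ℕ) : Type := {x : FreeGroup (Fin k) // FreeGroup.norm x ≤ r}

instance ball_finite (k r : ℕ) : Finite (Ball k r) := by
  have h : Set.Finite {l : List (Fin k × Bool) | l.length ≤ r} := List.finite_length_le _ r
  have h2 : Function.Injective (fun x : Ball k r =>
      (⟨FreeGroup.toWord x.1, x.2⟩ : {l : List (Fin k × Bool) | l.length ≤ r})) := by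
    intro x y hxy
    apply Subtype.ext
    exact FreeGroup.toWord_injective (congrArg Subtype.val hxy)
  have := h.to_subtype
  exact Finite.of_injective _ h2

/-- Left multiplication by a generator as a bijection between two parts of the ball. -/
noncomputable def genEquiv (k r : ℕ) (i : Fin k) :
    {x : Ball k r // FreeGroup.norm (FreeGroup.of i * x.1) ≤ r} ≃ {y : Ball k r // FreeGroup.norm ((FreeGroup.of i)⁻¹ * y.1) ≤ r} where
  toFun x := ⟨⟨FreeGroup.of i * x.1.1, x.2⟩, by simpa using x.1.2⟩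
  invFun y := ⟨⟨(FreeGroup.of i)⁻¹ * y.1.1, y.2⟩, by simpa using y.1.2⟩
  left_inv x := by simp
  right_inv y := by simp

open Classical in
/-- The permutation of the ball attached to a generator. -/
noncomputable def genPerm (k r : ℕ) (i : Fin k) : Equiv.Perm (Ball k r) :=
  (genEquiv k r i).extendSubtype

/-- The action of the free group on the ball. -/
noncomputable def ballHom (k r : ℕ) : FreeGroup (Fin k) →* Equiv.Perm (Ball k r) :=
  FreeGroup.lift (genPerm k r)

lemma ballHom_of (r : ℕ) (i : Fin k) (x : Ball k r) (h : FreeGroup.norm (FreeGroup.of i * x.1) ≤ r) :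
    ballHom k r (FreeGroup.of i) x = ⟨FreeGroup.of i * x.1, h⟩ := by
  classical
  unfold ballHom
  rw [FreeGroup.lift_apply_of]
  unfold genPerm
  rw [Equiv.extendSubtype_apply_of_mem (genEquiv k r i) x h]
  rfl

lemma ballHom_of_inv (r : ℕ) (i : Fin k) (y : Ball k r) (h : FreeGroup.norm ((FreeGroup.of i)⁻¹ * y.1) ≤ r) :
    ballHom k r (FreeGroup.of i)⁻¹ y = ⟨(FreeGroup.of i)⁻¹ * y.1, h⟩ := by
  rw [map_inv, Equiv.Perm.inv_eq_iff_eq]
  have h2 : FreeGroup.norm (FreeGroup.of i * ((FreeGroup.of i)⁻¹ * y.1)) ≤ r := by simpa using y.2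
  rw [ballHom_of r i ⟨(FreeGroup.of i)⁻¹ * y.1, h⟩ h2]
  apply Subtype.ext
  simp

lemma ballHom_letter (r : ℕ) (l : Fin k × Bool) (x : Ball k r) (h : FreeGroup.norm (letter l * x.1) ≤ r) :
    ballHom k r (letter l) x = ⟨letter l * x.1, h⟩ := by
  obtain ⟨i, b⟩ := l
  cases b with
  | true =>
    have e : letter (i, true) = FreeGroup.of i := rfl
    simp only [e] at h ⊢
    exact ballHom_of r i x h
  | false =>
    have e : letter (i, false) = (FreeGroup.of i)⁻¹ := by
      have := letter_inv (i, true)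
      have e2 : letter (i, true) = FreeGroup.of i := rfl
      rw [e2] at this
      exact this.symm
    simp only [e] at h ⊢
    exact ballHom_of_inv r i x h

lemma ballHom_one (r : ℕ) (x : FreeGroup (Fin k)) (hx : FreeGroup.norm x ≤ r) :
    ballHom k r x ⟨1, by simp⟩ = ⟨x, hx⟩ := by
  induction' hn : FreeGroup.norm x using Nat.strong_induction_on with n ih generalizing x
  by_cases h1 : x = 1
  · subst h1
    simp
  · obtain ⟨l, hl⟩ := exists_letter_norm_lt h1
    set y := letter l * x with hy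
    have hxy : x = letter (invLetter l) * y := by
      rw [hy, ← letter_inv, inv_mul_cancel_left]
    have hyr : FreeGroup.norm y ≤ r := by omega
    have h2 := ih (FreeGroup.norm y) (by omega) y hyr rfl
    have h3 : FreeGroup.norm (letter (invLetter l) * (⟨y, hyr⟩ : Ball k r).1) ≤ r := by
      show FreeGroup.norm (letter (invLetter l) * y) ≤ r
      rw [← hxy]; exact hx
    have h4 : ballHom k r x ⟨1, by simp⟩ = ballHom k r (letter (invLetter l))
        (ballHom k r y ⟨1, by simp⟩) := by
      conv_lhs => rw [hxy, map_mul]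
      rfl
    rw [h4, h2, ballHom_letter r _ ⟨y, hyr⟩ h3]
    apply Subtype.ext
    exact hxy.symm

lemma ballHom_NS (k r : ℕ) : NS (ballHom k r) r := by
  intro x hx hr h1
  have h2 := ballHom_one r x hr
  rw [h1] at h2
  have h3 := congrArg Subtype.val h2
  exact hx h3.symm

/-- Existence of a base. -/
lemma exists_base (k r : ℕ) : ∃ (Γ : Type) (_ : Group Γ) (_ : Fintype Γ)
    (Φ : FreeGroup (Fin k) →* Γ), Function.Surjective Φ ∧ NS Φ r := by
  classical
  haveI : Fintype (Ball k r) := Fintype.ofFinite _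
  refine ⟨(ballHom k r).range, inferInstance, Fintype.ofFinite _, (ballHom k r).rangeRestrict,
    MonoidHom.rangeRestrict_surjective _, ?_⟩
  intro x hx hr h1
  apply ballHom_NS k r x hx hr
  have := congrArg Subtype.val h1
  simpa using this

/-- Existence of a cover with no short relations. -/
lemma exists_cover {Γ : Type} [Group Γ] [Fintype Γ] (Φ : FreeGroup (Fin k) →* Γ) (r : ℕ) :
    ∃ (Γ' : Type) (_ : Group Γ') (_ : Fintype Γ') (Φ' : FreeGroup (Fin k) →* Γ') (pr : Γ' →* Γ),
      Function.Surjective Φ' ∧ NS Φ' r ∧ ∀ x, pr (Φ' x) = Φ x := by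
  classical
  haveI : Fintype (Ball k r) := Fintype.ofFinite _
  set Ψ : FreeGroup (Fin k) →* Γ × Equiv.Perm (Ball k r) := Φ.prod (ballHom k r) with hΨ
  refine ⟨Ψ.range, inferInstance, Fintype.ofFinite _, Ψ.rangeRestrict,
    (MonoidHom.fst _ _).comp Ψ.range.subtype,
    MonoidHom.rangeRestrict_surjective _, ?_, ?_⟩
  · intro x hx hr h1
    apply ballHom_NS k r x hx hr
    have h2 := congrArg (fun z => (z.1 : Γ × Equiv.Perm (Ball k r)).2) h1
    simpa [hΨ] using h2
  · intro x
    simp [hΨ]

end exist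

end P090
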