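import Vale.Agent.Lib.P090.Assemble

/-!
The wedge of the spaces of all parameters: a uniformly discrete metric space whose free space
fails the bounded approximation property.
-/

namespace P090

open Finset

section extension
variable {X : ℕ → Type} {d : ∀ n, X n → X n → ℕ} {D : ℕ → ℕ}

open Classical in
/-- Extension by zero from one summand of the wedge. -/
noncomputable def extF (n : ℕ) (f : X n → ℝ) : WedgeT X → ℝ
  | none => 0
  | some p => if h : p.1 = n then f (h ▸ p.2) else 0

lemma extF_same (n : ℕ) (f : X n → ℝ) (x : X n) : extF n f (some ⟨n, x⟩) = f x := by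
  simp [extF]

lemma extF_diff {m n : ℕ} (h : m ≠ n) (f : X n → ℝ) (y : X m) : extF n f (some ⟨m, y⟩) = 0 := by
  simp [extF, h]

lemma extF_none (n : ℕ) (f : X n → ℝ) : extF n f none = 0 := rfl

lemma extF_lip {n : ℕ} {f : X n → ℝ} {K : ℝ} (hK : 0 ≤ K)
    (hf : TestOK (d n) (D n : ℝ) K f) (a b : WedgeT X) :
    |extF n f a - extF n f b| ≤ K * (wd d D a b : ℝ) := by
  have hnn : ∀ m : ℕ, (0 : ℝ) ≤ K * (m : ℝ) := fun m => mul_nonneg hK (by positivity)
  rcases a with _ | ⟨m, y⟩ <;> rcases b with _ | ⟨l, z⟩
  · simp [extF_none]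
    exact hnn _
  · rw [extF_none, wd_none_left]
    by_cases hl : l = n
    · subst hl
      rw [extF_same, zero_sub, abs_neg]
      exact hf.2 z
    · rw [extF_diff hl, sub_zero, abs_zero]
      exact hnn _
  · rw [extF_none, wd_none_right]
    by_cases hm : m = n
    · subst hm
      rw [extF_same, sub_zero]
      exact hf.2 y
    · rw [extF_diff hm, sub_zero, abs_zero]
      exact hnn _
  · by_cases hm : m = n
    · subst hm
      by_cases hl : l = m
      · subst hl
        rw [extF_same, extF_same, wd_same]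
        exact hf.1 y z
      · rw [extF_same, extF_diff hl, sub_zero, wd_diff d D (Ne.symm hl)]
        refine (hf.2 y).trans ?_
        apply mul_le_mul_of_nonneg_left _ hK
        push_cast
        have : (0 : ℝ) ≤ D l := by positivity
        linarith
    · by_cases hl : l = n
      · subst hl
        rw [extF_same, extF_diff hm, zero_sub, abs_neg, wd_diff d D hm]
        refine (hf.2 z).trans ?_
        apply mul_le_mul_of_nonneg_left _ hK
        push_cast
        have : (0 : ℝ) ≤ D m := by positivity
        linarith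
      · rw [extF_diff hm, extF_diff hl, sub_zero, abs_zero]
        exact hnn _

/-- The extension as a Lipschitz function on the wedge. -/
lemma exists_ext (h : WedgeHyp d D) (n : ℕ) (K : ℝ) (hK : 0 ≤ K) (f : X n → ℝ)
    (hf : TestOK (d n) (D n : ℝ) K f) :
    letI := wedgeMetric h
    ∃ g : Lip0 (WedgeT X) none, ‖g‖ ≤ K ∧ (∀ x, g.1 (some ⟨n, x⟩) = f x) ∧
      ∀ m, m ∉ Set.range (fun x : X n => (some ⟨n, x⟩ : WedgeT X)) → g.1 m = 0 := by
  letI := wedgeMetric h
  have hlip : ∀ a b : WedgeT X, |extF n f a - extF n f b| ≤ K * dist a b := extF_lip hK hf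
  let g : Lip0 (WedgeT X) none := ⟨extF n f, rfl, K, hlip⟩
  refine ⟨g, lip_norm_le g hK hlip, fun x => extF_same n f x, ?_⟩
  rintro (_ | ⟨l, z⟩) hm
  · rfl
  · by_cases hl : l = n
    · subst hl
      exact absurd ⟨z, rfl⟩ hm
    · exact extF_diff hl f z

lemma wd_one_le (h : WedgeHyp d D) {a b : WedgeT X} (hab : a ≠ b) : 1 ≤ wd d D a b := by
  rcases a with _ | ⟨m, y⟩ <;> rcases b with _ | ⟨l, z⟩
  · exact absurd rfl hab
  · rw [wd_none_left]; exact h.Dpos l
  · rw [wd_none_right]; exact h.Dpos m
  · by_cases hm : m = l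
    · subst hm
      rw [wd_same]
      apply h.pos
      intro e
      exact hab (by rw [e])
    · rw [wd_diff d D hm]
      have := h.Dpos m
      omega

end extension

section family

/-- A finite group with a surjection from the free group and no short relations. -/
structure BaseData (R : ℕ) where
  Γ : Type
  grp : Group Γ
  fin : Fintype Γ
  Φ : FreeGroup (Fin 256) →* Γ
  hs : Function.Surjective Φ
  hN : NS Φ (2 * (R + 1))

instance (R : ℕ) (b : BaseData R) : Group b.Γ := b.grp

instance (R : ℕ) (b : BaseData R) : Fintype b.Γ := b.fin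

lemma baseData_nonempty (R : ℕ) : Nonempty (BaseData R) := by
  obtain ⟨Γ, g, f, Φ, hs, hN⟩ := exists_base 256 (2 * (R + 1))
  exact ⟨⟨Γ, g, f, Φ, hs, hN⟩⟩

/-- A chosen base for each value of the parameter. -/
noncomputable def baseOf (C : ℕ) : BaseData (paramR C) := Classical.choice (baseData_nonempty _)

/-- The local tree of the base. -/
noncomputable def LOf (C : ℕ) : LT (baseOf C).Γ :=
  mkLT (baseOf C).Φ (baseOf C).hs (paramR C) (baseOf C).hN

/-- The carrier for the parameter `C`. -/
abbrev XOf (C : ℕ) : Type := PV (LOf C)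

/-- The metric for the parameter `C`. -/
noncomputable def dOf (C : ℕ) : XOf C → XOf C → ℕ := dW (LOf C) (PG (LOf C)) (PP (LOf C)) (rho C)

/-- The diameter of the base. -/
noncomputable def diamOf (C : ℕ) : ℕ :=
  (univ : Finset ((baseOf C).Γ × (baseOf C).Γ)).sup (fun p => (LOf C).d p.1 p.2)

/-- The distance to the base point of the wedge. -/
noncomputable def DOf (C : ℕ) : ℕ := wW C + 2 * rho C + diamOf C

lemma family_hyp : WedgeHyp dOf DOf where
  self := fun _ x => dW_self x
  pos := fun C _ _ h => one_le_dW (rho_pos C) h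
  comm := fun _ x y => dW_comm x y
  tri := fun _ x y z => dW_tri PG_imm x y z
  bdd := by
    intro C x y
    have h1 : dOf C x y ≤ 2 * rho C + (LOf C).d (PP _ x) (PP _ y) := dW_le_detour
    have h2 : (LOf C).d (PP _ x) (PP _ y) ≤ diamOf C :=
      Finset.le_sup (f := fun p : (baseOf C).Γ × (baseOf C).Γ => (LOf C).d p.1 p.2)
        (mem_univ (PP _ x, PP _ y))
    unfold DOf
    omega
  Dpos := by
    intro C
    have := rho_pos C
    unfold DOf
    omega

/-- **Main theorem.** There is a uniformly discrete metric space whose Lipschitz-free space fails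
the bounded approximation property. -/
theorem main_theorem : ∃ (M : Type) (_ : MetricSpace M) (o : M),
    (∃ c : ℝ, 0 < c ∧ ∀ x y : M, x ≠ y → c ≤ dist x y) ∧ ¬ HasBAP (FreeSpace M o) := by
  letI : MetricSpace (WedgeT XOf) := wedgeMetric family_hyp
  refine ⟨WedgeT XOf, inferInstance, none, ⟨1, one_pos, ?_⟩, ?_⟩
  · intro x y hxy
    show (1 : ℝ) ≤ ((wd dOf DOf x y : ℕ) : ℝ)
    exact_mod_cast wd_one_le family_hyp hxy
  · intro hB
    obtain ⟨lam, h0, hmain⟩ := bap_coeffs hB
    obtain ⟨C, hC⟩ := exists_nat_ge lam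
    have hN2 : NS (baseOf C).Φ 2 := (baseOf C).hN.mono (by omega)
    refine final_contra (baseOf C).Φ (baseOf C).hs hN2 (LOf C) (fun _ _ => rfl) C le_rfl
      (DOf C : ℝ) ?_ lam h0 hC ?_
    · have : wW C ≤ DOf C := by unfold DOf; omega
      exact_mod_cast this
    · intro A
      refine hmain (fun x : XOf C => (some ⟨C, x⟩ : WedgeT XOf)) ?_ (dOf C) (DOf C : ℝ) ?_ ?_ ?_ A
      · intro x y hxy
        simpa using hxy
      · intro x y
        show ((wd dOf DOf (some ⟨C, x⟩) (some ⟨C, y⟩) : ℕ) : ℝ) = _
        rw [wd_same]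
      · intro x
        show ((wd dOf DOf (some ⟨C, x⟩) none : ℕ) : ℝ) ≤ _
        rw [wd_none_right]
      · intro K hK f hf
        exact exists_ext family_hyp C K hK f hf

end family

end P090
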