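import Vale.Agent.Lib.P090.Tree

/-!
The profile lemma: an infinite reduced walk in the graph, together with a chain of partner
roots of bounded level, eventually shadows a walk in the graph of the roots.
-/

namespace P090

section
variable {T : Type} {L : LT T} {V : Type} {G : SimpleGraph V} {P : V → T}

/-- The chain data. -/
structure Chain (L : LT T) (G : SimpleGraph V) (P : V → T) (w : ℕ) (φ q : ℕ → V) : Prop where
  hadj : ∀ i, G.Adj (φ i) (φ (i + 1))
  hnb : ∀ i, φ (i + 2) ≠ φ i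
  hroot : ∀ i, par L G P (P (φ i)) (q i) = q i
  hlev : ∀ i, lev L P (P (φ i)) (q i) ≤ w
  hnext : ∀ i, q (i + 1) = root L G P (P (φ (i + 1))) (q i)

variable {w : ℕ} {φ q : ℕ → V}

lemma Chain.d_t (hI : Imm L G P) (hC : Chain L G P w φ q) (i : ℕ) :
    L.d (P (φ i)) (P (φ (i + 1))) = 1 := hI.hom (hC.hadj i)

lemma Chain.t_ne (hI : Imm L G P) (hC : Chain L G P w φ q) (i : ℕ) :
    P (φ (i + 2)) ≠ P (φ i) := by
  intro h
  exact hC.hnb i (hI.inj (hC.hadj (i + 1)) (hC.hadj i).symm h)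

/-- At each step the root is unchanged, or the roots lie over the centres and are adjacent. -/
lemma Chain.tri (hI : Imm L G P) (hC : Chain L G P w φ q) (hw : w + 5 < L.R) (i : ℕ) :
    q (i + 1) = q i ∨
      (P (q i) = P (φ i) ∧ P (q (i + 1)) = P (φ (i + 1)) ∧ G.Adj (q i) (q (i + 1))) := by
  have h := two_center hI (hC.d_t hI i) (q i) (by have := hC.hlev i; omega)
  rw [root_of_par (hC.hroot i), ← hC.hnext i] at h
  rcases h with h | h
  · exact Or.inl h.symm
  · exact Or.inr h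

/-- Levels change by one when the root does not change. -/
lemma Chain.lev_step (hI : Imm L G P) (hC : Chain L G P w φ q) (hw : w + 5 < L.R) (i : ℕ) :
    L.d (P (q i)) (P (φ (i + 1))) = L.d (P (q i)) (P (φ i)) + 1 ∨
      L.d (P (q i)) (P (φ (i + 1))) + 1 = L.d (P (q i)) (P (φ i)) := by
  apply L.step _ _ _ _ (hC.d_t hI i)
  have := hC.hlev i
  unfold lev at this
  rw [L.d_comm]; omega

/-- Rising propagates forwards. -/
lemma Chain.rise_next (hI : Imm L G P) (hC : Chain L G P w φ q) (hw : w + 5 < L.R) (i : ℕ)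
    (h1 : q (i + 1) = q i)
    (h2 : L.d (P (q i)) (P (φ (i + 1))) = L.d (P (q i)) (P (φ i)) + 1) :
    q (i + 2) = q (i + 1) ∧
      L.d (P (q (i + 1))) (P (φ (i + 2))) = L.d (P (q (i + 1))) (P (φ (i + 1))) + 1 := by
  have hq : q (i + 2) = q (i + 1) := by
    rcases hC.tri hI hw (i + 1) with h | ⟨h3, _, _⟩
    · exact h
    · exfalso
      rw [h1] at h3
      rw [h3, L.d_self] at h2
      omega
  refine ⟨hq, ?_⟩
  rw [h1]
  have hlev : L.d (P (q i)) (P (φ (i + 1))) < L.R := by
    have := hC.hlev (i + 1)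
    unfold lev at this
    rw [h1] at this
    rw [L.d_comm]; omega
  rcases L.step _ _ _ hlev (hC.d_t hI (i + 1)) with h | h
  · exact h
  · exfalso
    have h3 : L.d (P (φ (i + 1))) (P (φ i)) = 1 := by
      rw [L.d_comm]; exact hC.d_t hI i
    exact hC.t_ne hI i (L.par_uniq _ _ _ _ hlev (hC.d_t hI (i + 1)) h3 h h2.symm)

/-- Falling propagates backwards. -/
lemma Chain.fall_prev (hI : Imm L G P) (hC : Chain L G P w φ q) (hw : w + 5 < L.R) (i : ℕ)
    (h1 : q (i + 2) = q (i + 1))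
    (h2 : L.d (P (q (i + 1))) (P (φ (i + 2))) + 1 = L.d (P (q (i + 1))) (P (φ (i + 1)))) :
    q (i + 1) = q i ∧
      L.d (P (q i)) (P (φ (i + 1))) + 1 = L.d (P (q i)) (P (φ i)) := by
  have hq : q (i + 1) = q i := by
    rcases hC.tri hI hw i with h | ⟨_, h3, _⟩
    · exact h
    · exfalso
      rw [h3, L.d_self] at h2
      omega
  refine ⟨hq, ?_⟩
  rw [← hq]
  have hlev : L.d (P (q (i + 1))) (P (φ (i + 1))) < L.R := by
    have := hC.hlev (i + 1)
    unfold lev at this
    rw [L.d_comm]; omega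
  have h3 : L.d (P (φ (i + 1))) (P (φ i)) = 1 := by
    rw [L.d_comm]; exact hC.d_t hI i
  rcases L.step _ _ _ hlev h3 with h | h
  · omega
  · exact absurd (L.par_uniq _ _ _ _ hlev (hC.d_t hI (i + 1)) h3 h2 h) (hC.t_ne hI i)

/-- No rising step at all in an infinite chain. -/
lemma Chain.no_rise (hI : Imm L G P) (hC : Chain L G P w φ q) (hw : w + 5 < L.R) (i : ℕ)
    (h1 : q (i + 1) = q i)
    (h2 : L.d (P (q i)) (P (φ (i + 1))) = L.d (P (q i)) (P (φ i)) + 1) : False := by
  have key : ∀ j, q (i + j + 1) = q (i + j) ∧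
      L.d (P (q (i + j))) (P (φ (i + j + 1))) = L.d (P (q (i + j))) (P (φ (i + j))) + 1 ∧
      j ≤ L.d (P (q (i + j))) (P (φ (i + j))) := by
    intro j
    induction j with
    | zero => exact ⟨h1, h2, Nat.zero_le _⟩
    | succ j ih =>
      obtain ⟨h3, h4, h5⟩ := ih
      obtain ⟨h6, h7⟩ := hC.rise_next hI hw (i + j) h3 h4
      refine ⟨h6, h7, ?_⟩
      have e : i + (j + 1) = i + j + 1 := rfl
      rw [e, h3]
      omega
  have h3 := (key (w + 1)).2.2
  have h4 := hC.hlev (i + (w + 1))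
  unfold lev at h4
  rw [L.d_comm] at h4
  omega

/-- Falling steps happen only at the start. -/
lemma Chain.fall_small (hI : Imm L G P) (hC : Chain L G P w φ q) (hw : w + 5 < L.R) (i : ℕ)
    (h1 : q (i + 1) = q i)
    (h2 : L.d (P (q i)) (P (φ (i + 1))) + 1 = L.d (P (q i)) (P (φ i))) : i < w := by
  have key : ∀ j, j ≤ i → q (i - j + 1) = q (i - j) ∧
      L.d (P (q (i - j))) (P (φ (i - j + 1))) + 1 = L.d (P (q (i - j))) (P (φ (i - j))) ∧
      j + 1 ≤ L.d (P (q (i - j))) (P (φ (i - j))) := by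
    intro j
    induction j with
    | zero => intro _; exact ⟨h1, h2, by simp only [Nat.sub_zero]; omega⟩
    | succ j ih =>
      intro hj
      obtain ⟨h3, h4, h5⟩ := ih (by omega)
      have e : i - j = i - (j + 1) + 1 := by omega
      rw [e] at h3 h4 h5
      obtain ⟨h6, h7⟩ := hC.fall_prev hI hw (i - (j + 1)) h3 h4
      refine ⟨h6, h7, ?_⟩
      rw [h6] at h5
      omega
  have h3 := (key i le_rfl).2.2
  have h4 := hC.hlev (i - i)
  unfold lev at h4
  rw [L.d_comm] at h4
  omega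

/-- Eventually a chain shadows a walk. -/
lemma Chain.shadow (hI : Imm L G P) (hC : Chain L G P w φ q) (hw : w + 5 < L.R) (i : ℕ)
    (hi : w ≤ i) : G.Adj (q i) (q (i + 1)) ∧ P (q i) = P (φ i) := by
  rcases hC.tri hI hw i with h | ⟨h1, _, h3⟩
  · exfalso
    rcases hC.lev_step hI hw i with h2 | h2
    · exact hC.no_rise hI hw i h h2
    · have := hC.fall_small hI hw i h h2
      omega
  · exact ⟨h3, h1⟩

end

end P090
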