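import Vale.Agent.Lib.P090.Profile

/-!
The test functions on the metric over the base.
-/

namespace P090

section
variable {T : Type} {L : LT T} {V : Type} {G : SimpleGraph V} {P : V → T}

/-- The cut-off at the centre `t` with radius `w`. -/
noncomputable def chi (L : LT T) (P : V → T) (w : ℕ) (t : T) (x : V) : ℝ :=
  max (1 - (lev L P t x : ℝ) / w) 0

lemma chi_nonneg (w : ℕ) (t : T) (x : V) : 0 ≤ chi L P w t x := le_max_right _ _

lemma chi_le_one (w : ℕ) (t : T) (x : V) : chi L P w t x ≤ 1 := by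
  unfold chi
  apply max_le _ zero_le_one
  have : (0 : ℝ) ≤ (lev L P t x : ℝ) / w := by positivity
  linarith

lemma abs_chi_le_one (w : ℕ) (t : T) (x : V) : |chi L P w t x| ≤ 1 := by
  rw [abs_of_nonneg (chi_nonneg w t x)]
  exact chi_le_one w t x

lemma chi_eq_zero {w : ℕ} (hw : 1 ≤ w) {t : T} {x : V} (h : w ≤ lev L P t x) :
    chi L P w t x = 0 := by
  unfold chi
  apply max_eq_right
  have hw' : (0 : ℝ) < w := by exact_mod_cast hw
  have : (w : ℝ) ≤ lev L P t x := by exact_mod_cast h
  rw [sub_nonpos, le_div_iff₀ hw']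
  linarith

lemma chi_self {w : ℕ} {t : T} {x : V} (h : P x = t) : chi L P w t x = 1 := by
  unfold chi lev
  rw [h, L.d_self]
  simp

lemma chi_sub_le (w : ℕ) (hw : 1 ≤ w) (t : T) (x y : V) :
    |chi L P w t x - chi L P w t y| ≤ (L.d (P x) (P y) : ℝ) / w := by
  have hw' : (0 : ℝ) < w := by exact_mod_cast hw
  unfold chi
  refine (abs_max_sub_max_le_abs _ _ _).trans ?_
  have h1 : (1 - (lev L P t x : ℝ) / w) - (1 - (lev L P t y : ℝ) / w) =
      ((lev L P t y : ℝ) - lev L P t x) / w := by ring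
  rw [h1, abs_div, abs_of_pos hw']
  apply div_le_div_of_nonneg_right _ hw'.le
  unfold lev
  rw [abs_le]
  have h2 := L.d_tri t (P x) (P y)
  have h3 := L.d_tri t (P y) (P x)
  rw [L.d_comm (P y) (P x)] at h3
  have h2' : (L.d t (P y) : ℝ) ≤ L.d t (P x) + L.d (P x) (P y) := by exact_mod_cast h2
  have h3' : (L.d t (P x) : ℝ) ≤ L.d t (P y) + L.d (P x) (P y) := by exact_mod_cast h3
  constructor <;> linarith

lemma chi_center_sub_le (w : ℕ) (hw : 1 ≤ w) {t t' : T} (htt : L.d t t' = 1) (x : V) :
    |chi L P w t x - chi L P w t' x| ≤ 1 / (w : ℝ) := by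
  have hw' : (0 : ℝ) < w := by exact_mod_cast hw
  unfold chi
  refine (abs_max_sub_max_le_abs _ _ _).trans ?_
  have h1 : (1 - (lev L P t x : ℝ) / w) - (1 - (lev L P t' x : ℝ) / w) =
      ((lev L P t' x : ℝ) - lev L P t x) / w := by ring
  rw [h1, abs_div, abs_of_pos hw']
  apply div_le_div_of_nonneg_right _ hw'.le
  unfold lev
  rw [abs_le]
  have h2 := L.d_tri t' t (P x)
  have h3 := L.d_tri t t' (P x)
  rw [L.d_comm t' t, htt] at h2
  rw [htt] at h3
  have h2' : (L.d t' (P x) : ℝ) ≤ 1 + L.d t (P x) := by exact_mod_cast h2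
  have h3' : (L.d t (P x) : ℝ) ≤ 1 + L.d t' (P x) := by exact_mod_cast h3
  constructor <;> linarith

/-- The metric conditions that the lower bound needs. -/
structure WData (L : LT T) (G : SimpleGraph V) (P : V → T) (dW : V → V → ℕ) (ρ : ℕ) : Prop where
  one_le : ∀ x y, x ≠ y → 1 ≤ dW x y
  base_le : ∀ x y, L.d (P x) (P y) ≤ dW x y
  walk : ∀ x y, x ≠ y → dW x y < 2 * ρ → ∃ p : G.Walk x y, p.length = dW x y

/-- Admissible test functions: `K`-Lipschitz and bounded by `K * D`. -/
def TestOK (dW : V → V → ℕ) (D K : ℝ) (f : V → ℝ) : Prop :=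
  (∀ x y, |f x - f y| ≤ K * dW x y) ∧ ∀ x, |f x| ≤ K * D

variable {dW : V → V → ℕ} {ρ w : ℕ} {D : ℝ}

lemma test_chi (hW : WData L G P dW ρ) (hw : 1 ≤ w) (hD : (w : ℝ) ≤ D) (t : T) :
    TestOK dW D (1 / (w : ℝ)) (chi L P w t) := by
  have hw' : (0 : ℝ) < w := by exact_mod_cast hw
  constructor
  · intro x y
    refine (chi_sub_le w hw t x y).trans ?_
    have : (L.d (P x) (P y) : ℝ) ≤ dW x y := by exact_mod_cast hW.base_le x y
    rw [div_eq_inv_mul, one_div]
    exact mul_le_mul_of_nonneg_left this (by positivity)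
  · intro x
    refine (abs_chi_le_one w t x).trans ?_
    rw [div_mul_eq_mul_div, one_mul, le_div_iff₀ hw']
    linarith

lemma test_g1 (hI : Imm L G P) (hW : WData L G P dW ρ) {θ : V → ℝ} (hθ : ∀ x, |θ x| ≤ 1) (t : T)
    (hρ : 1 ≤ ρ) (hρw : ρ ≤ w) (hR : w + 2 * ρ ≤ L.R) (hD : (ρ : ℝ) ≤ D) :
    TestOK dW D (1 / (ρ : ℝ)) (fun x => θ (root L G P t x) * chi L P w t x) := by
  have hw : 1 ≤ w := hρ.trans hρw
  have hw' : (0 : ℝ) < w := by exact_mod_cast hw
  have hρ' : (0 : ℝ) < ρ := by exact_mod_cast hρ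
  have hρw' : (ρ : ℝ) ≤ w := by exact_mod_cast hρw
  constructor
  · intro x y
    by_cases hxy : x = y
    · subst hxy
      simp only [sub_self, abs_zero]
      positivity
    have hdn : (0 : ℝ) ≤ dW x y := by positivity
    have hchi : |chi L P w t x - chi L P w t y| ≤ (1 / (ρ : ℝ)) * dW x y := by
      refine (chi_sub_le w hw t x y).trans ?_
      have h1 : (L.d (P x) (P y) : ℝ) ≤ dW x y := by exact_mod_cast hW.base_le x y
      calc (L.d (P x) (P y) : ℝ) / w ≤ (dW x y : ℝ) / w :=
            div_le_div_of_nonneg_right h1 hw'.le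
        _ ≤ (dW x y : ℝ) / ρ := div_le_div_of_nonneg_left hdn hρ' hρw'
        _ = (1 / (ρ : ℝ)) * dW x y := by ring
    by_cases hx : w ≤ lev L P t x
    · have h0 := chi_eq_zero (L := L) (P := P) hw hx
      simp only
      rw [h0]
      have h1 : |chi L P w t y| ≤ (1 / (ρ : ℝ)) * dW x y := by
        rw [← sub_zero (chi L P w t y), ← h0, abs_sub_comm]; exact hchi
      simp only [mul_zero, zero_sub, abs_neg, abs_mul]
      calc |θ (root L G P t y)| * |chi L P w t y| ≤ 1 * |chi L P w t y| :=
            mul_le_mul_of_nonneg_right (hθ _) (abs_nonneg _)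
        _ ≤ _ := by rw [one_mul]; exact h1
    by_cases hy : w ≤ lev L P t y
    · have h0 := chi_eq_zero (L := L) (P := P) hw hy
      simp only
      rw [h0]
      have h1 : |chi L P w t x| ≤ (1 / (ρ : ℝ)) * dW x y := by
        rw [← sub_zero (chi L P w t x), ← h0]; exact hchi
      simp only [mul_zero, sub_zero, abs_mul]
      calc |θ (root L G P t x)| * |chi L P w t x| ≤ 1 * |chi L P w t x| :=
            mul_le_mul_of_nonneg_right (hθ _) (abs_nonneg _)
        _ ≤ _ := by rw [one_mul]; exact h1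
    by_cases hr : root L G P t x = root L G P t y
    · simp only
      rw [hr, ← mul_sub, abs_mul]
      calc |θ (root L G P t y)| * |chi L P w t x - chi L P w t y| ≤
            1 * |chi L P w t x - chi L P w t y| :=
            mul_le_mul_of_nonneg_right (hθ _) (abs_nonneg _)
        _ ≤ _ := by rw [one_mul]; exact hchi
    · have hfar : 2 * ρ ≤ dW x y := by
        by_contra hlt
        have hlt' : dW x y < 2 * ρ := not_le.mp hlt
        obtain ⟨p, hp⟩ := hW.walk x y hxy hlt'
        apply hr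
        apply root_walk hI p
        rw [hp]
        have hx' : lev L P t x < w := not_le.mp hx
        omega
      have hfar' : (2 : ℝ) * ρ ≤ dW x y := by exact_mod_cast hfar
      have h1 : |θ (root L G P t x) * chi L P w t x| ≤ 1 := by
        rw [abs_mul]
        exact mul_le_one₀ (hθ _) (abs_nonneg _) (abs_chi_le_one _ _ _)
      have h2 : |θ (root L G P t y) * chi L P w t y| ≤ 1 := by
        rw [abs_mul]
        exact mul_le_one₀ (hθ _) (abs_nonneg _) (abs_chi_le_one _ _ _)
      have h3 := abs_sub (θ (root L G P t x) * chi L P w t x) (θ (root L G P t y) * chi L P w t y)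
      have h4 : (2 : ℝ) ≤ (1 / (ρ : ℝ)) * dW x y := by
        rw [div_mul_eq_mul_div, one_mul, le_div_iff₀ hρ']
        linarith
      simp only
      linarith
  · intro x
    simp only
    rw [abs_mul]
    have h1 : |θ (root L G P t x)| * |chi L P w t x| ≤ 1 :=
      mul_le_one₀ (hθ _) (abs_nonneg _) (abs_chi_le_one _ _ _)
    refine h1.trans ?_
    rw [div_mul_eq_mul_div, one_mul, le_div_iff₀ hρ']
    linarith

lemma test_g2 (hW : WData L G P dW ρ) {θ : V → ℝ} (hθ : ∀ x, |θ x| ≤ 1) {t t' : T}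
    (htt : L.d t t' = 1) (hw : 1 ≤ w) (hD : 1 ≤ D) :
    TestOK dW D (2 / (w : ℝ)) (fun x => θ (root L G P t x) * (chi L P w t x - chi L P w t' x)) := by
  have hw' : (0 : ℝ) < w := by exact_mod_cast hw
  have hsmall : ∀ x, |θ (root L G P t x) * (chi L P w t x - chi L P w t' x)| ≤ 1 / (w : ℝ) := by
    intro x
    rw [abs_mul]
    calc |θ (root L G P t x)| * |chi L P w t x - chi L P w t' x| ≤
          1 * (1 / (w : ℝ)) :=
          mul_le_mul (hθ _) (chi_center_sub_le w hw htt x) (abs_nonneg _) zero_le_one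
      _ = 1 / (w : ℝ) := one_mul _
  have hinv : (0 : ℝ) ≤ 1 / (w : ℝ) := by positivity
  constructor
  · intro x y
    by_cases hxy : x = y
    · subst hxy
      simp only [sub_self, abs_zero]
      positivity
    have h1 : (1 : ℝ) ≤ dW x y := by exact_mod_cast hW.one_le x y hxy
    by_cases hr : root L G P t x = root L G P t y
    · simp only
      rw [hr, ← mul_sub, abs_mul]
      have h2 : (L.d (P x) (P y) : ℝ) ≤ dW x y := by exact_mod_cast hW.base_le x y
      have h3 := chi_sub_le (L := L) (P := P) w hw t x y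
      have h4 := chi_sub_le (L := L) (P := P) w hw t' x y
      have h5 : (L.d (P x) (P y) : ℝ) / w ≤ (dW x y : ℝ) / w :=
        div_le_div_of_nonneg_right h2 hw'.le
      have h6 : |(chi L P w t x - chi L P w t' x) - (chi L P w t y - chi L P w t' y)| ≤
          (2 / (w : ℝ)) * dW x y := by
        have e : (chi L P w t x - chi L P w t' x) - (chi L P w t y - chi L P w t' y) =
            (chi L P w t x - chi L P w t y) - (chi L P w t' x - chi L P w t' y) := by ring
        rw [e]
        have h7 := abs_sub (chi L P w t x - chi L P w t y) (chi L P w t' x - chi L P w t' y)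
        have e2 : (2 / (w : ℝ)) * dW x y = 2 * ((dW x y : ℝ) / w) := by ring
        rw [e2]
        linarith
      calc |θ (root L G P t y)| * _ ≤ 1 * _ :=
            mul_le_mul_of_nonneg_right (hθ _) (abs_nonneg _)
        _ ≤ _ := by rw [one_mul]; exact h6
    · have h3 := abs_sub (θ (root L G P t x) * (chi L P w t x - chi L P w t' x))
        (θ (root L G P t y) * (chi L P w t y - chi L P w t' y))
      have h4 := hsmall x
      have h5 := hsmall y
      have e2 : (2 / (w : ℝ)) * dW x y = 2 * (1 / (w : ℝ)) * dW x y := by ring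
      rw [e2]
      have h6 : 2 * (1 / (w : ℝ)) * 1 ≤ 2 * (1 / (w : ℝ)) * dW x y :=
        mul_le_mul_of_nonneg_left h1 (by positivity)
      simp only
      linarith
  · intro x
    refine (hsmall x).trans ?_
    have e : (2 / (w : ℝ)) * D = 2 * D * (1 / (w : ℝ)) := by ring
    rw [e]
    have h6 : 1 * (1 / (w : ℝ)) ≤ 2 * D * (1 / (w : ℝ)) :=
      mul_le_mul_of_nonneg_right (by linarith) hinv
    linarith

end

end P090
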