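import Mathlib

/-!
Local tree structure on a base and rooted classes of graphs immersed in the base.
-/

namespace P090

/-- A distance on `T` that is a graph metric and looks like a tree up to radius `R`. -/
structure LT (T : Type) where
  d : T → T → ℕ
  d_self : ∀ t, d t t = 0
  d_eq : ∀ t s, d t s = 0 → t = s
  d_comm : ∀ t s, d t s = d s t
  d_tri : ∀ t s u, d t u ≤ d t s + d s u
  exists_step : ∀ t s n, d t s = n + 1 → ∃ s', d t s' = n ∧ d s' s = 1
  R : ℕ
  step : ∀ c s s', d c s < R → d s s' = 1 → d c s' = d c s + 1 ∨ d c s' + 1 = d c s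
  par_uniq : ∀ c s s₁ s₂, d c s < R → d s s₁ = 1 → d s s₂ = 1 →
    d c s₁ + 1 = d c s → d c s₂ + 1 = d c s → s₁ = s₂

/-- `P` is a locally injective graph homomorphism from `G` to the graph of `L`. -/
structure Imm {T : Type} (L : LT T) {V : Type} (G : SimpleGraph V) (P : V → T) : Prop where
  hom : ∀ {x y}, G.Adj x y → L.d (P x) (P y) = 1
  inj : ∀ {x y z}, G.Adj x y → G.Adj x z → P y = P z → y = z

section
variable {T : Type} (L : LT T) {V : Type} (G : SimpleGraph V) (P : V → T)

/-- The level of `x` seen from the centre `t`. -/
def lev (t : T) (x : V) : ℕ := L.d t (P x)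

open Classical in
/-- A neighbour of `x` that is closer to `t`, or `x` itself if there is none. -/
noncomputable def par (t : T) (x : V) : V :=
  if h : ∃ y, G.Adj x y ∧ lev L P t y + 1 = lev L P t x then h.choose else x

/-- Descend as long as possible. -/
noncomputable def root (t : T) (x : V) : V := (par L G P t)^[lev L P t x] x

variable {L G P}

lemma par_spec {t : T} {x : V} (h : par L G P t x ≠ x) :
    G.Adj x (par L G P t x) ∧ lev L P t (par L G P t x) + 1 = lev L P t x := by
  classical
  unfold par at h ⊢
  split_ifs at h ⊢ with h'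
  · exact h'.choose_spec
  · exact absurd rfl h

lemma par_eq_self {t : T} {x : V} (h : ∀ y, G.Adj x y → lev L P t y + 1 ≠ lev L P t x) :
    par L G P t x = x := by
  classical
  unfold par
  rw [dif_neg]
  rintro ⟨y, hy, hy'⟩
  exact h y hy hy'

lemma par_lev_le (t : T) (x : V) : lev L P t (par L G P t x) ≤ lev L P t x := by
  by_cases h : par L G P t x = x
  · rw [h]
  · have := (par_spec h).2; omega

lemma root_of_par {t : T} {x : V} (h : par L G P t x = x) : root L G P t x = x := by
  unfold root
  exact Function.iterate_fixed h _

lemma root_par {t : T} {x : V} (h : par L G P t x ≠ x) :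
    root L G P t (par L G P t x) = root L G P t x := by
  have h2 := (par_spec h).2
  unfold root
  rw [← h2, Function.iterate_succ_apply]

lemma par_root (t : T) (x : V) : par L G P t (root L G P t x) = root L G P t x := by
  induction' hn : lev L P t x using Nat.strong_induction_on with n ih generalizing x
  by_cases h : par L G P t x = x
  · rw [root_of_par h, h]
  · have h2 := (par_spec h).2
    rw [← root_par h]
    exact ih (lev L P t (par L G P t x)) (by omega) _ rfl

lemma root_root_self (t : T) (x : V) : root L G P t (root L G P t x) = root L G P t x :=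
  root_of_par (par_root t x)

lemma lev_root_le (t : T) (x : V) : lev L P t (root L G P t x) ≤ lev L P t x := by
  induction' hn : lev L P t x using Nat.strong_induction_on with n ih generalizing x
  by_cases h : par L G P t x = x
  · rw [root_of_par h]; omega
  · have h2 := (par_spec h).2
    rw [← root_par h]
    have := ih (lev L P t (par L G P t x)) (by omega) _ rfl
    omega

lemma root_mem (B : Finset V) (hB : ∀ x ∈ B, ∀ y, G.Adj x y → y ∈ B) (t : T) {x : V} (hx : x ∈ B) :
    root L G P t x ∈ B := by
  induction' hn : lev L P t x using Nat.strong_induction_on with n ih generalizing x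
  by_cases h : par L G P t x = x
  · rw [root_of_par h]; exact hx
  · have h2 := par_spec h
    rw [← root_par h]
    exact ih (lev L P t (par L G P t x)) (by omega) (hB x hx _ h2.1) rfl

variable (hI : Imm L G P)
include hI

/-- Parents are unique at small levels. -/
lemma par_eq {t : T} {x y : V} (hxy : G.Adj x y) (hy : lev L P t y + 1 = lev L P t x)
    (hR : lev L P t x < L.R) : par L G P t x = y := by
  have hne : par L G P t x ≠ x := by
    classical
    unfold par
    have hex : ∃ y, G.Adj x y ∧ lev L P t y + 1 = lev L P t x := ⟨y, hxy, hy⟩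
    rw [dif_pos hex]
    exact hex.choose_spec.1.ne'
  have h2 := par_spec hne
  apply hI.inj h2.1 hxy
  exact L.par_uniq t (P x) _ _ hR (hI.hom h2.1) (hI.hom hxy) h2.2 hy

/-- The root is constant along edges at small levels. -/
lemma root_adj {t : T} {x y : V} (hxy : G.Adj x y) (hx : lev L P t x < L.R)
    (hy : lev L P t y < L.R) : root L G P t x = root L G P t y := by
  rcases L.step t (P x) (P y) hx (hI.hom hxy) with h | h
  · -- `x` is the parent of `y`
    have h1 : par L G P t y = x := par_eq hI hxy.symm h.symm hy
    have hne : par L G P t y ≠ y := by rw [h1]; exact hxy.ne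
    rw [← root_par hne, h1]
  · have h1 : par L G P t x = y := par_eq hI hxy h hx
    have hne : par L G P t x ≠ x := by rw [h1]; exact hxy.ne'
    rw [← root_par hne, h1]

lemma lev_adj_le {t : T} {x y : V} (hxy : G.Adj x y) : lev L P t y ≤ lev L P t x + 1 := by
  have := L.d_tri t (P x) (P y)
  rw [hI.hom hxy] at this
  exact this

/-- The root is constant along short walks. -/
lemma root_walk {t : T} {x y : V} (p : G.Walk x y) (h : lev L P t x + p.length < L.R) :
    root L G P t x = root L G P t y := by
  induction p with
  | nil => rfl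
  | @cons u v w hadj p ih =>
    have h1 : lev L P t v ≤ lev L P t u + 1 := lev_adj_le hI hadj
    simp only [SimpleGraph.Walk.length_cons] at h
    rw [root_adj hI hadj (by omega) (by omega)]
    exact ih (by omega)

/-- A parent for one centre is a parent for an adjacent centre. -/
lemma parent_transfer {t t' : T} (htt : L.d t t' = 1) {x y : V} (hxy : G.Adj x y)
    (hx : P x ≠ t') (hR : lev L P t x + 1 < L.R) (hy : lev L P t y + 1 = lev L P t x) :
    lev L P t' y + 1 = lev L P t' x := by
  have hs : L.d (P x) (P y) = 1 := hI.hom hxy
  have hc : L.d (P x) t < L.R := by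
    rw [L.d_comm]; unfold lev at hR; omega
  have hc2 := L.step (P x) t t' hc htt
  rw [L.d_comm (P x) t, L.d_comm (P x) t'] at hc2
  unfold lev at *
  rcases hc2 with hA | hB
  · have h1 : L.d t' (P y) ≤ L.d t' t + L.d t (P y) := L.d_tri _ _ _
    rw [L.d_comm t' t, htt] at h1
    have h2 : L.d t' (P x) < L.R := by omega
    rcases L.step t' (P x) (P y) h2 hs with h3 | h3
    · omega
    · exact h3
  · have hpos : L.d t' (P x) ≠ 0 := by
      intro h0
      exact hx (L.d_eq _ _ h0).symm
    obtain ⟨n, hn⟩ := Nat.exists_eq_succ_of_ne_zero hpos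
    obtain ⟨s, hs1, hs2⟩ := L.exists_step t' (P x) n hn
    have h1 : L.d t s ≤ L.d t t' + L.d t' s := L.d_tri _ _ _
    rw [htt, hs1] at h1
    have hs3 : L.d (P x) s = 1 := by rw [L.d_comm]; exact hs2
    have h4 : L.d t (P x) < L.R := by omega
    rcases L.step t (P x) s h4 hs3 with h5 | h5
    · omega
    · have h6 : s = P y := L.par_uniq t (P x) s (P y) h4 hs3 hs h5 hy
      rw [← h6, hs1, hn]

/-- Away from the two centres, the parents for adjacent centres agree. -/
lemma par_two {t t' : T} (htt : L.d t t' = 1) {x : V} (hx : P x ≠ t) (hx' : P x ≠ t')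
    (hR : lev L P t x + 2 < L.R) : par L G P t x = par L G P t' x := by
  have hR' : lev L P t' x ≤ lev L P t x + 1 := by
    have := L.d_tri t' t (P x)
    rw [L.d_comm t' t, htt] at this
    unfold lev; omega
  have htt' : L.d t' t = 1 := by rw [L.d_comm]; exact htt
  by_cases h : ∃ y, G.Adj x y ∧ lev L P t y + 1 = lev L P t x
  · obtain ⟨y, hy, hy'⟩ := h
    rw [par_eq hI hy hy' (by omega),
      par_eq hI hy (parent_transfer hI htt hy hx' (by omega) hy') (by omega)]
  · have h1 : par L G P t x = x := par_eq_self (fun y hy hy' => h ⟨y, hy, hy'⟩)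
    have h2 : par L G P t' x = x := par_eq_self (fun y hy hy' =>
      h ⟨y, hy, parent_transfer hI htt' hy hx (by omega) hy'⟩)
    rw [h1, h2]

omit hI in
lemma root_center {t : T} {x : V} (hx : P x = t) : root L G P t x = x := by
  have : lev L P t x = 0 := by unfold lev; rw [hx]; exact L.d_self t
  unfold root
  rw [this]; rfl

omit hI in
lemma root_center_nbr {t t' : T} (htt : L.d t t' = 1) {x : V} (hx : P x = t) :
    root L G P t' x = x ∨ (P (root L G P t' x) = t' ∧ G.Adj x (root L G P t' x)) := by
  have h1 : lev L P t' x = 1 := by
    unfold lev; rw [hx, L.d_comm]; exact htt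
  have h2 : root L G P t' x = par L G P t' x := by
    unfold root; rw [h1]; rfl
  rw [h2]
  by_cases h : par L G P t' x = x
  · exact Or.inl h
  · right
    have h3 := par_spec h
    refine ⟨?_, h3.1⟩
    have h4 : lev L P t' (par L G P t' x) = 0 := by omega
    exact (L.d_eq _ _ h4).symm

/-- The two-centre lemma: the roots for two adjacent centres either agree, or lie
over the two centres and are adjacent. -/
lemma two_center {t t' : T} (htt : L.d t t' = 1) (x : V) (hR : lev L P t x + 2 < L.R) :
    root L G P t x = root L G P t' x ∨
      (P (root L G P t x) = t ∧ P (root L G P t' x) = t' ∧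
        G.Adj (root L G P t x) (root L G P t' x)) := by
  have htt' : L.d t' t = 1 := by rw [L.d_comm]; exact htt
  induction' hn : lev L P t x using Nat.strong_induction_on with n ih generalizing x
  by_cases hx : P x = t
  · rw [root_center hx]
    rcases root_center_nbr htt hx with h | ⟨h1, h2⟩
    · exact Or.inl h.symm
    · exact Or.inr ⟨hx, h1, h2⟩
  by_cases hx' : P x = t'
  · rw [root_center hx']
    rcases root_center_nbr htt' hx' with h | ⟨h1, h2⟩
    · exact Or.inl h
    · exact Or.inr ⟨h1, hx', h2.symm⟩
  have hp : par L G P t x = par L G P t' x := par_two hI htt hx hx' hR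
  by_cases h : par L G P t x = x
  · left
    rw [root_of_par h, root_of_par (hp ▸ h)]
  · have h2 := par_spec h
    have h' : par L G P t' x ≠ x := hp ▸ h
    rw [← root_par h, ← root_par h', ← hp]
    exact ih _ (by omega) _ (by omega) rfl

/-- The partner of the root for `t` is the root for `t'`. -/
lemma root_root {t t' : T} (htt : L.d t t' = 1) (x : V) (hR : lev L P t x + 3 < L.R) :
    root L G P t' (root L G P t x) = root L G P t' x := by
  have htt' : L.d t' t = 1 := by rw [L.d_comm]; exact htt
  rcases two_center hI htt x (by omega) with h | ⟨h1, h2, h3⟩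
  · rw [h, root_root_self]
  · have h4 : lev L P t' (root L G P t' x) = 0 := by
      unfold lev; rw [h2]; exact L.d_self t'
    have h5 : lev L P t' (root L G P t x) = 1 := by
      unfold lev
      rw [h1]
      exact htt'
    have h6 := root_adj (t := t') hI h3 (by omega) (by omega)
    rw [h6, root_root_self]

end

end P090
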